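import Vale.Agent.P002.Torus.Bad

/-! For spheres, the representations in which the first two boundary matrices have a nonscalar
common centraliser form a set of small dimension: a third slot carries the relation. -/

open Matrix Module Filter Topology
open scoped ENNReal

namespace Vale.Agent.P002.Sphere

open Vale.Agent.P002.Surface (Mat PMap mul_adj adj_mul)
open Vale.Agent.P002.Pair
open Vale.Agent.P002.Torus (sk0 sk1 rel2 BadV Bad pmap_rel2 fderiv_rel2)

attribute [local instance] Matrix.linftyOpNormedAddCommGroup Matrix.linftyOpNormedSpace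
  Matrix.linftyOpNormedRing Matrix.linftyOpNormedAlgebra

variable {r m : ℕ} {J : Fin (m + 1 + 2) → Mat r}

/-- The slot of the third conjugator. -/
abbrev sk2 : Idx 0 (m + 1 + 2) := Sum.inr ⟨2, by omega⟩

lemma finrank_cen_cyclic {A : Mat r} (h : Frames.Cyclic A) : finrank ℂ (cen A) ≤ r := by
  obtain ⟨v, hv⟩ := h
  let f : cen A →ₗ[ℂ] (Fin r → ℂ) := ((Matrix.mulVecBilin ℂ ℂ).flip v).comp (cen A).subtype
  have hinj : Function.Injective f := by
    rw [← LinearMap.ker_eq_bot, LinearMap.ker_eq_bot']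
    intro x hx
    have hxv : (x : Mat r) *ᵥ v = 0 := hx
    have hpow : ∀ j : ℕ, (x : Mat r) * A ^ j = A ^ j * (x : Mat r) := fun j =>
      (Commute.pow_right (mem_cen.1 x.2).symm j :)
    have hB : (x : Mat r) * Matrix.of (fun i j : Fin r => (A ^ (j : ℕ) *ᵥ v) i) = 0 := by
      ext i j
      have h1 : ((x : Mat r) *ᵥ (A ^ (j : ℕ) *ᵥ v)) i = 0 := by
        rw [mulVec_mulVec, hpow, ← mulVec_mulVec, hxv, mulVec_zero, Pi.zero_apply]
      exact h1
    refine Subtype.ext ?_
    have := congrArg (fun M => M * (Matrix.of fun i j : Fin r => (A ^ (j : ℕ) *ᵥ v) i).adjugate) hB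
    simp only [mul_assoc, mul_adjugate, Algebra.mul_smul_comm, mul_one, zero_mul] at this
    exact (smul_eq_zero.1 this).resolve_left hv
  exact (LinearMap.finrank_le_finrank_of_injective hinj).trans_eq (finrank_fin_fun ℂ)

/-- The image of a conjugator slot has codimension at most the centraliser. -/
lemma rank_sk (hr : 0 < r) (hJ : ∀ i, (J i).det = 1) {q : Amb 0 (m + 1 + 2) r} (hq : q ∈ Sol J)
    (l : Fin (m + 1 + 2)) {C : Submodule ℂ (Amb 0 (m + 1 + 2) r)}
    (hC : ∀ Y : Mat r, Y.trace = 0 → Pi.single (Sum.inr l) (q (Sum.inr l) * Y) ∈ C) :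
    ∃ I ≤ C.map (fderiv ℂ (relF J) q).toLinearMap,
      finrank ℂ I + finrank ℂ (cen (J l)) = r ^ 2 := by
  set k := q (Sum.inr l) with hkdef
  set P := preB J q l
  have hk : k.det = 1 := hq.1 _
  have hP : P.det = 1 := det_preB hJ hq.1 _
  let Φ : Mat r →ₗ[ℂ] Mat r :=
    { toFun := fun Y => P * (k * (Y - J l * Y * (J l).adjugate) * k.adjugate) * P.adjugate
      map_add' := fun x y => by simp only [mul_add, add_mul, mul_sub, sub_mul]; abel
      map_smul' := fun c x => by
        simp only [mul_smul_comm, smul_mul_assoc, RingHom.id_apply, mul_sub, sub_mul, smul_sub] }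
  have hker : Φ.ker = cen (J l) := by
    ext Y
    rw [LinearMap.mem_ker, mem_cen]
    constructor
    · intro h
      have h2 := congrArg (fun X => k.adjugate * (P.adjugate * X * P) * k) h
      simp only [Φ, LinearMap.coe_mk, AddHom.coe_mk, mul_zero, zero_mul, mul_assoc] at h2
      simp only [← mul_assoc P.adjugate P, adj_mul hP, one_mul, ← mul_assoc k.adjugate k,
        adj_mul hk, mul_one, sub_eq_zero] at h2
      calc J l * Y = J l * Y * ((J l).adjugate * J l) := by rw [adj_mul (hJ l), mul_one]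
        _ = J l * (Y * (J l).adjugate) * J l := by simp only [mul_assoc]
        _ = Y * J l := by rw [← h2]
    · intro h
      have : Y - J l * Y * (J l).adjugate = 0 := by
        rw [h, mul_assoc, mul_adj (hJ l), mul_one, sub_self]
      simp [Φ, this]
  refine ⟨Φ.range, ?_, ?_⟩
  · rintro _ ⟨Y, rfl⟩
    have hr' : (r : ℂ) ≠ 0 := Nat.cast_ne_zero.2 hr.ne'
    set Y0 := Y - (Y.trace / r) • (1 : Mat r)
    have hY0 : Y0.trace = 0 := by
      rw [trace_sub, trace_smul, trace_one, Fintype.card_fin, smul_eq_mul,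
        div_mul_cancel₀ _ hr', sub_self]
    refine ⟨_, hC Y0 hY0, ?_⟩
    show fderiv ℂ (relF J) q _ = Φ Y
    rw [deriv_k hJ hq l hY0]
    show Φ Y0 = Φ Y
    rw [map_sub, map_smul, show Φ 1 = 0 from LinearMap.mem_ker.1 (hker ▸ one_mem_cen (J l)),
      smul_zero, sub_zero]
  · rw [← hker, Φ.finrank_range_add_finrank_ker, Module.finrank_matrix, Fintype.card_fin,
      finrank_self, mul_one, sq]

/-- The bad set over one subspace of codimension at least `r` is small. -/
lemma dimH_badV (hr : 0 < r) (hJ : ∀ i, (J i).det = 1) (h2 : Frames.Cyclic (J ⟨2, by omega⟩))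
    (V : Submodule ℂ (Mat r)) (hV : finrank ℂ V + r ≤ r ^ 2) :
    dimH (BadV (g := 0) (m := m + 1) J V) ≤
      ((2 * ((m + 1 + 2 - 1) * (r ^ 2 - 1) - 1) : ℕ) : ℝ≥0∞) := by
  classical
  refine dimH_le_of_local fun q hq => ?_
  obtain ⟨hsol, hqV⟩ := hq
  obtain ⟨V', hVV'⟩ := V.exists_isCompl
  let W : Mat r →L[ℂ] Mat r :=
    LinearMap.toContinuousLinearMap (V'.subtype.comp (V'.projectionOnto V hVV'.symm))
  have hWV : ∀ M, W M = 0 ↔ M ∈ V := fun M => by
    show ((V'.projectionOnto V hVV'.symm M : V') : Mat r) = 0 ↔ _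
    rw [ZeroMemClass.coe_eq_zero, Submodule.projectionOnto_apply_eq_zero_iff]
  let pp : Amb 0 (m + 1 + 2) r →L[ℂ] Mat r × Mat r :=
    (ContinuousLinearMap.proj (R := ℂ) (φ := fun _ : Idx 0 (m + 1 + 2) => Mat r) sk1).prod
      (ContinuousLinearMap.proj (R := ℂ) (φ := fun _ : Idx 0 (m + 1 + 2) => Mat r) sk0)
  let Du : Amb 0 (m + 1 + 2) r →L[ℂ] Mat r := (fderiv ℂ rel2 (pp q)).comp pp
  let G : Amb 0 (m + 1 + 2) r → _ := fun x => ((dets x, relF J x), W (rel2 (pp x)))
  have e2 : HasStrictFDerivAt (fun x => W (rel2 (pp x))) (W.comp Du) q :=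
    W.hasStrictFDerivAt.comp q (HasStrictFDerivAt.comp q
      ((pmap_rel2 (r := r)).contDiff.contDiffAt.hasStrictFDerivAt one_ne_zero) pp.hasStrictFDerivAt)
  have hG : HasStrictFDerivAt G (((detsD q).prod (fderiv ℂ (relF J) q)).prod (W.comp Du)) q :=
    ((hasStrictFDerivAt_dets hsol.1).prodMk (hasFDerivAt_relF J q)).prodMk e2
  obtain ⟨U, hU, hdim⟩ := exists_small_nhds hG
  refine ⟨U, hU, le_trans (dimH_mono ?_) (hdim.trans ?_)⟩
  · rintro x ⟨⟨hxs, hxV⟩, hxU⟩
    refine ⟨?_, hxU⟩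
    show G x = G q
    exact Prod.ext (Prod.ext (funext fun t => (hxs.1 t).trans (hsol.1 t).symm)
      (hxs.2.trans hsol.2.symm)) (((hWV _).2 hxV).trans ((hWV _).2 hqV).symm)
  set K := LinearMap.ker
    (((detsD q).prod (fderiv ℂ (relF J) q)).prod (W.comp Du)).toLinearMap with hK
  let S : Idx 0 (m + 1 + 2) → Submodule ℂ (Mat r) := fun t => tanS (q t)
  have hC := finrank_slots S (fun _ => 0) (fun t => (finrank_tanS hr (hsol.1 t)).le) (c := 0)
    (by simp)
  set piS := Submodule.pi Set.univ S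
  let L : Amb 0 (m + 1 + 2) r →ₗ[ℂ] Mat r := (W.comp Du).toLinearMap
  have hsurj : W.toLinearMap.range ≤ piS.map L := by
    rintro _ ⟨M, rfl⟩
    set u := rel2 (pp q) with hu
    have hud : u.det = 1 := by
      simp [u, rel2, pp, det_adjugate, hsol.1]
    have hua : u.adjugate * u = 1 := adj_mul hud
    have hr' : (r : ℂ) ≠ 0 := Nat.cast_ne_zero.2 hr.ne'
    let c : ℂ := (-(M * u.adjugate)).trace / r
    let Y : Mat r := -(M * u.adjugate) - c • 1
    have hY : Y.trace = 0 := by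
      rw [trace_sub, trace_smul, trace_one, Fintype.card_fin, smul_eq_mul, div_mul_cancel₀ _ hr',
        sub_self]
    refine ⟨Pi.single sk1 (q sk1 * Y), single_mem_pi (s := m + 1 + 2) (mul_mem_tanS (hsol.1 _) hY),
      ?_⟩
    show W (fderiv ℂ rel2 (pp q) (pp (Pi.single sk1 (q sk1 * Y)))) = W M
    have epp : pp (Pi.single sk1 (q sk1 * Y)) = (q sk1 * Y, 0) := by
      refine Prod.ext ?_ ?_
      · show (Pi.single sk1 (q sk1 * Y) : Amb 0 (m + 1 + 2) r) sk1 = _
        simp
      · show (Pi.single sk1 (q sk1 * Y) : Amb 0 (m + 1 + 2) r) sk0 = 0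
        simp
    have ev : fderiv ℂ rel2 (pp q) (q sk1 * Y, 0) = -(Y * u) := fderiv_rel2 hY
    have eM : -(Y * u) = M + c • u := by
      simp only [Y, sub_mul, neg_mul, mul_assoc, hua, mul_one, smul_mul_assoc, one_mul]
      abel
    rw [epp, ev, eM, map_add, map_smul, (hWV u).2 hqV, smul_zero, add_zero]
  have hcut : finrank ℂ ↥(piS ⊓ LinearMap.ker L) + r ≤ finrank ℂ piS := by
    have h1 := (L.comp piS.subtype).finrank_range_add_finrank_ker
    rw [LinearMap.range_comp, Submodule.range_subtype] at h1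
    have h2 := W.toLinearMap.finrank_range_add_finrank_ker
    have h3 : finrank ℂ W.toLinearMap.ker = finrank ℂ V := by
      rw [show W.toLinearMap.ker = V from Submodule.ext fun M => hWV M]
    rw [h3, Module.finrank_matrix, Fintype.card_fin, finrank_self, mul_one, ← sq] at h2
    have h4 := Submodule.finrank_mono hsurj
    have h5 : finrank ℂ (L.comp piS.subtype).ker = finrank ℂ ↥(piS ⊓ LinearMap.ker L) := by
      rw [LinearMap.ker_comp, ← Submodule.map_comap_subtype]
      exact (Submodule.equivMapOfInjective _ piS.injective_subtype _).finrank_eq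
    omega
  have hKC : K ≤ piS ⊓ LinearMap.ker L := fun w hw =>
    ⟨fun t _ => congrFun (congrArg (fun x : ((Idx 0 (m + 1 + 2) → ℂ) × Mat r) × Mat r => x.1.1) hw) t,
      congrArg (fun x : ((Idx 0 (m + 1 + 2) → ℂ) × Mat r) × Mat r => x.2) hw⟩
  obtain ⟨I, hI, hIdim⟩ := rank_sk hr hJ hsol ⟨2, by omega⟩ (C := piS ⊓ LinearMap.ker L)
    fun Y hY => by
      refine ⟨single_mem_pi (mul_mem_tanS (hsol.1 _) hY), ?_⟩
      show W (fderiv ℂ rel2 (pp q) (pp (Pi.single sk2 (q sk2 * Y)))) = 0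
      have : pp (Pi.single sk2 (q sk2 * Y)) = 0 := by
        refine Prod.ext ?_ ?_
        · show (Pi.single sk2 (q sk2 * Y) : Amb 0 (m + 1 + 2) r) sk1 = 0
          rw [Pi.single_eq_of_ne (by simp [Fin.ext_iff])]
        · show (Pi.single sk2 (q sk2 * Y) : Amb 0 (m + 1 + 2) r) sk0 = 0
          rw [Pi.single_eq_of_ne (by simp [Fin.ext_iff])]
      rw [this, map_zero, map_zero]
  have hcount := finrank_count (fderiv ℂ (relF J) q).toLinearMap hKC (fun w hw =>
    congrArg (fun x : ((Idx 0 (m + 1 + 2) → ℂ) × Mat r) × Mat r => x.1.2) hw) hI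
  have h1 := finrank_cen_cyclic h2
  have hC' : finrank ℂ piS + (m + 1 + 2) ≤ (m + 1 + 2) * r ^ 2 := by simpa using hC
  have hcount' : finrank ℂ K + finrank ℂ I ≤ finrank ℂ ↥(piS ⊓ LinearMap.ker L) := hcount
  obtain ⟨R, hR⟩ : ∃ R, r ^ 2 = R + 1 := ⟨r ^ 2 - 1, by
    have := Nat.one_le_pow 2 r hr; omega⟩
  have h3 : (m + 1 + 2 - 1) * (r ^ 2 - 1) + (m + 1 + 2) + r ^ 2 = (m + 1 + 2) * r ^ 2 + 1 := by
    rw [hR, show m + 1 + 2 - 1 = m + 2 from rfl, Nat.add_sub_cancel]
    ring
  exact_mod_cast (show 2 * finrank ℂ K ≤ 2 * ((m + 1 + 2 - 1) * (r ^ 2 - 1) - 1) by omega)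

/-- The bad set is small. -/
lemma dimH_bad (hr : 3 ≤ r) (hJ : ∀ i, (J i).det = 1) (hc : ∀ i, Frames.Cyclic (J i)) :
    dimH (Bad (g := 0) (m := m + 1) J) ≤
      ((2 * ((m + 1 + 2 - 1) * (r ^ 2 - 1) - 1) : ℕ) : ℝ≥0∞) := by
  obtain ⟨𝒱, hfin, hdimV, hsub⟩ := Torus.exists_cover (g := 0) hr (hc 0) (hc 1)
  refine (dimH_mono hsub).trans ?_
  rw [dimH_bUnion hfin.countable]
  exact iSup₂_le fun V hV => dimH_badV (by omega) hJ (hc _) V (hdimV V hV)

end Vale.Agent.P002.Sphere
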