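import Vale.Agent.P002.Sphere.Lift

/-! Chain data exists for an open dense set of conjugators. -/

open Matrix Filter Topology

namespace Vale.Agent.P002.Sphere

open Vale.Agent.P002.Frames

variable {n m : ℕ}

/-- The right factors of a row of puncture elements. -/
noncomputable def zb {K : Type*} [CommRing K] (lam : Fin (m + 1) → Fin n → Kˣ)
    (x : Fin (m + 1) → XP n K) (j : ℕ) : SL (n + 1) K :=
  if h : j < m + 1 then tZ (lam ⟨j, h⟩) (x ⟨j, h⟩) else 1

/-- The matrices are the blocks of a chain of puncture elements. -/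
def ChainC (lam : Fin (m + 1) → Fin n → ℂˣ) (c : Fin (m + 1) → SL (n + 1) ℂ) : Prop :=
  ∃ (q0 : SL (n + 1) ℂ) (x : Fin (m + 1) → XP n ℂ) (J : ℕ → Jt n ℂ), Up q0 ∧
    ∀ i : Fin (m + 1), c i = elt (fun _ => 1) (zb lam x) q0 J i

lemma zb_up {K : Type*} [CommRing K] (lam : Fin (m + 1) → Fin n → Kˣ)
    (x : Fin (m + 1) → XP n K) (j : ℕ) : Up (zb lam x j) := by
  unfold zb; split_ifs
  exacts [tZ_up _ _, Up.one]

lemma mp_zb {K L : Type*} [CommRing K] [CommRing L] (f : K →+* L)
    (lam : Fin (m + 1) → Fin n → Kˣ) (x : Fin (m + 1) → XP n K) :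
    (fun j => mp f (zb lam x j)) =
      zb (fun i l => Units.map (f : K →* L) (lam i l)) (fun i => mpX f (x i)) := by
  funext j
  unfold zb; split_ifs
  exacts [mp_tZ f _ _, map_one _]

lemma elt_punct {K : Type*} [CommRing K] (lam : Fin (m + 1) → Fin n → Kˣ)
    (x : Fin (m + 1) → XP n K) (q0 : SL (n + 1) K) (J : ℕ → Jt n K) (i : Fin (m + 1)) :
    elt (fun _ => 1) (zb lam x) q0 J i =
      (st (fun _ => 1) (zb lam x) q0 J i).2.2 * tElt (lam i) (x i) *
        ((st (fun _ => 1) (zb lam x) q0 J i).2.2)⁻¹ := by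
  rw [elt, one_mul, tElt_eq, zb, dif_pos i.isLt]

/-- Scale the first column. -/
def scol {K : Type*} [CommRing K] (M : Matrix (Fin (n + 1)) (Fin (n + 1)) K) (t : K) :
    Matrix (Fin (n + 1)) (Fin (n + 1)) K :=
  M * diagonal (Function.update 1 0 t)

lemma det_scol {K : Type*} [CommRing K] (M : Matrix (Fin (n + 1)) (Fin (n + 1)) K) (t : K) :
    (scol M t).det = M.det * t := by
  rw [scol, det_mul, det_diagonal, Fin.prod_univ_succ]
  simp [Fin.succ_ne_zero]

lemma map_scol {K L : Type*} [CommRing K] [CommRing L] (f : K →+* L)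
    (M : Matrix (Fin (n + 1)) (Fin (n + 1)) K) (t : K) :
    (scol M t).map f = scol (M.map f) (f t) := by
  rw [scol, scol, Matrix.map_mul, diagonal_map (map_zero f)]
  congr 2
  funext i
  refine Fin.cases ?_ (fun i => ?_) i <;> simp [Fin.succ_ne_zero]

lemma map_det' {K L : Type*} [CommRing K] [CommRing L] (f : K →+* L)
    (M : Matrix (Fin (n + 1)) (Fin (n + 1)) K) : f M.det = (M.map f).det := f.map_det M

/-- Entries of a row of matrices. -/
abbrev CI (n m : ℕ) : Type := Fin (m + 1) × Fin (n + 1) × Fin (n + 1)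

/-- The variable matrices. -/
noncomputable def Xmat (i : Fin (m + 1)) :
    Matrix (Fin (n + 1)) (Fin (n + 1)) (MvPolynomial (CI n m) ℂ) :=
  Matrix.of fun a b => MvPolynomial.X (i, a, b)

/-- The matrices at a point. -/
def matAt (v : CI n m → ℂ) (i : Fin (m + 1)) : Matrix (Fin (n + 1)) (Fin (n + 1)) ℂ :=
  Matrix.of fun a b => v (i, a, b)

lemma Xmat_eval (v : CI n m → ℂ) (i : Fin (m + 1)) :
    (Xmat i).map (MvPolynomial.eval v) = matAt v i := by
  ext a b; simp [Xmat, matAt]

/-- Units of germs are germs of units. -/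
lemma germ_unit {V : Type*} (F : Filter V) (a : (F.Germ ℂ)ˣ) :
    ∃ b : (V → ℂ)ˣ, Units.map ((Germ.coeRingHom F : (V → ℂ) →+* F.Germ ℂ) : (V → ℂ) →* F.Germ ℂ) b = a := by
  classical
  obtain ⟨f, hf⟩ : ∃ f : V → ℂ, (f : F.Germ ℂ) = a := Quotient.exists_rep _
  obtain ⟨g, hg⟩ : ∃ g : V → ℂ, (g : F.Germ ℂ) = (a⁻¹ : (F.Germ ℂ)ˣ) := Quotient.exists_rep _
  have h1 : ((f * g : V → ℂ) : F.Germ ℂ) = ((1 : V → ℂ) : F.Germ ℂ) := by
    rw [Germ.coe_mul, hf, hg, Units.mul_inv, Germ.coe_one]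
  have h2 := Germ.coe_eq.1 h1
  refine ⟨MulEquiv.piUnits.symm fun v => if h : f v = 0 then 1 else Units.mk0 (f v) h,
    Units.ext ?_⟩
  simp only [Units.coe_map, MonoidHom.coe_coe, Germ.coe_coeRingHom]
  rw [← hf]
  refine Germ.coe_eq.2 (h2.mono fun v hv => ?_)
  have hne : f v ≠ 0 := left_ne_zero_of_mul_eq_one hv
  simp [hne]

lemma germ_surj {V : Type*} (F : Filter V) (a : F.Germ ℂ) :
    ∃ f : V → ℂ, Germ.coeRingHom F f = a := Quotient.exists_rep a

/-- Away from a hypersurface the normalised matrices of a point have chain data. -/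
lemma exists_chain_poly (lam : Fin (m + 1) → Fin n → ℂˣ) (x₀ : Fin (m + 1) → XP n ℂ)
    {q0 : SL (n + 1) ℂ} (hq : Up q0) (J₀ : ℕ → Jt n ℂ) (T S : Fin (m + 1) → SL (n + 1) ℂ)
    (hT : ∀ i, T i = S i * (diOf (lam i) * (bOf (x₀ i))⁻¹) * (S i)⁻¹) :
    ∃ D : MvPolynomial (CI n m) ℂ, D ≠ 0 ∧ ∀ v, MvPolynomial.eval v D ≠ 0 →
      (∀ i, (matAt v i).det ≠ 0) ∧ ∀ u : Fin (m + 1) → SL (n + 1) ℂ,
        (∀ i, (u i).1 = scol (matAt v i) (matAt v i).det⁻¹) →
          ChainC lam fun i => u i * T i * (u i)⁻¹ := by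
  classical
  set Q₀ : ℕ → SL (n + 1) ℂ := fun j => (st (fun _ => 1) (zb lam x₀) q0 J₀ j).2.2 with hQ₀
  have hQ₀u : ∀ j, Up (Q₀ j) := fun j =>
    (st_up J₀ (fun _ => Up.one) (zb_up lam x₀) hq j).2.2
  -- the base point
  let u₀ : Fin (m + 1) → SL (n + 1) ℂ := fun i => Q₀ i * (Vmat n (x₀ i))⁻¹ * (S i)⁻¹
  let v₀ : CI n m → ℂ := fun e => (u₀ e.1).1 e.2.1 e.2.2
  -- the local ring at the base point
  let ev : MvPolynomial (CI n m) ℂ →+* ℂ := MvPolynomial.eval v₀
  have : (RingHom.ker ev).IsPrime := RingHom.ker_isPrime ev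
  let O := Localization.AtPrime (RingHom.ker ev)
  let aO : MvPolynomial (CI n m) ℂ →+* O := algebraMap _ _
  have hev : ∀ y : (RingHom.ker ev).primeCompl, IsUnit (ev y) := fun y =>
    isUnit_iff_ne_zero.2 fun h => y.2 (RingHom.mem_ker.2 h)
  let φ : O →+* ℂ := IsLocalization.lift (M := (RingHom.ker ev).primeCompl) hev
  let ι : ℂ →+* O := aO.comp MvPolynomial.C
  have hφ : ∀ p, φ (aO p) = ev p := fun p => IsLocalization.lift_eq _ p
  have h : Det φ ι := by
    refine ⟨fun z => by simp [ι, hφ, ev], fun a ha => ?_⟩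
    obtain ⟨p, s, rfl⟩ := IsLocalization.exists_mk'_eq (RingHom.ker ev).primeCompl a
    have hp : ev p ≠ 0 := fun e => ha (by
      have := congrArg φ (IsLocalization.mk'_spec O p s)
      rw [map_mul, hφ, hφ, e] at this
      exact (mul_eq_zero.1 this).resolve_right fun e' => s.2 (RingHom.mem_ker.2 e'))
    exact IsUnit.of_mul_eq_one (IsLocalization.mk' O (s : MvPolynomial (CI n m) ℂ) ⟨p, hp⟩)
      (by rw [← IsLocalization.mk'_mul, mul_comm (p : MvPolynomial (CI n m) ℂ) s]
          exact IsLocalization.mk'_self _ _)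
  -- the conjugators over the local ring
  have hdet : ∀ i, φ ((Xmat (n := n) i).map aO).det = 1 := fun i => by
    rw [show ((Xmat (n := n) i).map aO).det = aO (Xmat i).det from (aO.map_det _).symm, hφ,
      show ev (Xmat i).det = ((Xmat i).map ev).det from ev.map_det _, Xmat_eval]
    exact (u₀ i).2
  choose d hd using fun i => h.unit _ (by rw [hdet i]; exact one_ne_zero)
  let κ : Fin (m + 1) → SL (n + 1) O := fun i =>
    ⟨scol ((Xmat i).map aO) ((d i)⁻¹ : Oˣ), by rw [det_scol, ← hd, Units.mul_inv]⟩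
  have hκ : ∀ i, mp φ (κ i) = u₀ i := fun i => by
    refine Subtype.ext ?_
    show (scol ((Xmat i).map aO) ((d i)⁻¹ : Oˣ)).map φ = (u₀ i).1
    have e1 : φ (((d i)⁻¹ : Oˣ) : O) = 1 := by
      have := congrArg φ (Units.mul_inv (d i))
      rwa [map_mul, hd, hdet, one_mul, map_one] at this
    rw [map_scol, e1, Matrix.map_map, show (φ ∘ aO : MvPolynomial (CI n m) ℂ → ℂ) = ev from
      funext hφ, Xmat_eval, scol, show (Function.update 1 0 1 : Fin (n + 1) → ℂ) = (1 : Fin (n + 1) → ℂ) from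
      Function.update_eq_self (0 : Fin (n + 1)) (1 : Fin (n + 1) → ℂ), diagonal_one', mul_one]
    rfl
  let lamO : Fin (m + 1) → Fin n → Oˣ := fun i l => Units.map (ι : ℂ →* O) (lam i l)
  choose qp xp hqu hqe hqφ hzφ using fun i : Fin (m + 1) =>
    punct_lift h (lam i) (x₀ i) (hQ₀u i) (κ i * mp ι (S i))
      (by rw [map_mul, hκ, h.mp_sect]; simp only [u₀]; group)
  let Q : ℕ → SL (n + 1) O := fun j => if hj : j < m + 1 then qp ⟨j, hj⟩ else 1
  have hQ : ∀ j (hj : j < m + 1), mp φ (Q j) = Q₀ j := fun j hj => by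
    simp only [Q, dif_pos hj]
    exact hqφ ⟨j, hj⟩
  have hZ : (fun j => mp φ (zb lamO xp j)) = zb lam x₀ := by
    funext j
    unfold zb; split_ifs with hj
    · exact hzφ ⟨j, hj⟩
    · exact map_one _
  obtain ⟨J, hJ, -⟩ := joints_lift h (PB := fun _ => 1) (ZB := zb lamO xp) (Q := Q)
    (fun _ => Up.one) (zb_up _ _)
    (fun j => by simp only [Q]; split_ifs; exacts [hqu _, Up.one]) J₀ m (fun j hj => by
      rw [hZ, map_one, hQ 0 (Nat.succ_pos m), hQ j (Nat.lt_succ_of_le hj)]
      rfl)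
  have hmain : ∀ i : Fin (m + 1),
      elt (fun _ => 1) (zb lamO xp) (Q 0) J i * κ i = κ i * mp ι (T i) := fun i => by
    rw [elt_punct, hJ i (Nat.le_of_lt_succ i.isLt), show Q i = qp i from dif_pos i.isLt,
      ← hqe i, hT i]
    simp only [map_mul, map_inv]
    group
  -- germs along the complements of hypersurfaces avoiding the base point
  let B : (RingHom.ker ev).primeCompl → Set (CI n m → ℂ) := fun s =>
    {v | MvPolynomial.eval v (s : MvPolynomial (CI n m) ℂ) ≠ 0}
  have hdir : Directed (· ≥ ·) fun s => 𝓟 (B s) := fun s t => by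
    refine ⟨s * t, ?_, ?_⟩ <;> simp only [ge_iff_le, principal_mono] <;> intro v hv <;>
      simp only [B, Set.mem_ofPred_eq, Submonoid.coe_mul, map_mul] at hv ⊢
    exacts [left_ne_zero_of_mul hv, right_ne_zero_of_mul hv]
  set F : Filter (CI n m → ℂ) := ⨅ s, 𝓟 (B s) with hF
  have hmem : ∀ s, B s ∈ F := fun s => mem_iInf_of_mem s (mem_principal_self _)
  let β : ((CI n m → ℂ) → ℂ) →+* F.Germ ℂ := Germ.coeRingHom F
  let evF : MvPolynomial (CI n m) ℂ →+* ((CI n m → ℂ) → ℂ) :=
    RingHom.pi fun v => MvPolynomial.eval v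
  have hg : ∀ y : (RingHom.ker ev).primeCompl, IsUnit ((β.comp evF) y) := fun y =>
    IsUnit.of_mul_eq_one (β fun v => (evF y v)⁻¹) (by
      rw [RingHom.comp_apply, ← map_mul, ← map_one β]
      exact Germ.coe_eq.2 (mem_of_superset (hmem y) fun v hv => mul_inv_cancel₀ hv))
  let α : O →+* F.Germ ℂ := IsLocalization.lift (M := (RingHom.ker ev).primeCompl) hg
  have hα : ∀ p, α (aO p) = β (evF p) := fun p => IsLocalization.lift_eq _ p
  -- representatives of the data
  obtain ⟨dq, uq, hdu⟩ := exists_upOf (hqu 0)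
  choose dq' hdq' using fun l => germ_unit F (Units.map (α : O →* F.Germ ℂ) (dq l))
  choose uq' huq' using fun a b => germ_surj F (α (uq a b))
  choose xp' hxp' using fun i a b => germ_unit F (Units.map (α : O →* F.Germ ℂ) (xp i a b))
  choose J1 hJ1 using fun j l => germ_unit F (Units.map (α : O →* F.Germ ℂ) ((J j).1 l))
  choose J2 hJ2 using fun j a b => germ_unit F (Units.map (α : O →* F.Germ ℂ) ((J j).2 a b))
  let lamF : Fin (m + 1) → Fin n → ((CI n m → ℂ) → ℂ)ˣ := fun i l =>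
    MulEquiv.piUnits.symm fun _ => lam i l
  let J' : ℕ → Jt n ((CI n m → ℂ) → ℂ) := fun j => (J1 j, J2 j)
  let E : Fin (m + 1) → SL (n + 1) ((CI n m → ℂ) → ℂ) := fun i =>
    elt (fun _ => 1) (zb lamF xp') (upOf dq' uq') J' i
  let Kf : Fin (m + 1) → Matrix (Fin (n + 1)) (Fin (n + 1)) ((CI n m → ℂ) → ℂ) := fun i =>
    scol ((Xmat i).map evF) fun v => (matAt v i).det⁻¹
  have hlamF : ∀ i l, Units.map (β : _ →* F.Germ ℂ) (lamF i l) =
      Units.map (α : O →* F.Germ ℂ) (lamO i l) := fun i l => Units.ext <| by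
    show β (fun _ => (lam i l : ℂ)) = α (ι (lam i l : ℂ))
    rw [show α (ι (lam i l : ℂ)) = β (evF (MvPolynomial.C (lam i l : ℂ))) from hα _]
    congr 1
    funext v
    simp [evF]
  have hE : ∀ i : Fin (m + 1), mp β (E i) =
      mp α (elt (fun _ => 1) (zb lamO xp) (Q 0) J i) := fun i => by
    simp only [E]
    rw [mp_elt, mp_elt, map_one, map_one, mp_upOf, mp_zb, mp_zb,
      show Q 0 = qp 0 from dif_pos (Nat.succ_pos m), ← hdu, mp_upOf]
    have e1 : (fun i l => Units.map (β : _ →* F.Germ ℂ) (lamF i l)) =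
        fun i l => Units.map (α : O →* F.Germ ℂ) (lamO i l) :=
      funext fun i => funext (hlamF i)
    have e2 : (fun i => mpX β (xp' i)) = fun i => mpX α (xp i) :=
      funext fun i => funext fun a => funext (hxp' i a)
    have e3 : (fun j => mpJ β (J' j)) = fun j => mpJ α (J j) :=
      funext fun j => Prod.ext (funext (hJ1 j)) (funext fun a => funext (hJ2 j a))
    have e4 : (fun l => Units.map (β : _ →* F.Germ ℂ) (dq' l)) =
        fun l => Units.map (α : O →* F.Germ ℂ) (dq l) := funext hdq'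
    have e5 : (fun a b => β (uq' a b)) = fun a b => α (uq a b) :=
      funext fun a => funext (huq' a)
    rw [e1, e2, e3, e4, e5]
  have hK : ∀ i, (Kf i).map β = (κ i).1.map α := fun i => by
    show _ = (scol ((Xmat i).map aO) ((d i)⁻¹ : Oˣ)).map α
    rw [map_scol, map_scol, Matrix.map_map, Matrix.map_map]
    congr 1
    · ext a b
      exact (hα _).symm
    · have hne : {v : CI n m → ℂ | (matAt v i).det ≠ 0} ∈ F := by
        refine mem_of_superset (hmem ⟨(Xmat i).det, fun e => ?_⟩) fun v hv => ?_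
        · rw [SetLike.mem_coe, RingHom.mem_ker, ← hφ, map_det' aO, hdet] at e
          exact one_ne_zero e
        · simpa [B, map_det', Xmat_eval] using hv
      have h1 : β (fun v => (matAt v i).det) * β (fun v => (matAt v i).det⁻¹) = 1 := by
        rw [← map_mul, ← map_one β]
        exact Germ.coe_eq.2 (mem_of_superset hne fun v hv => mul_inv_cancel₀ hv)
      have h2 : α (d i : O) * α ((d i)⁻¹ : Oˣ) = 1 := by rw [← map_mul, Units.mul_inv, map_one]
      have e : α (d i : O) = β (fun v => (matAt v i).det) := by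
        rw [hd, ← map_det' aO]
        refine (hα _).trans (congrArg β (funext fun v => ?_))
        show MvPolynomial.eval v (Xmat i).det = _
        rw [map_det', Xmat_eval]
      rw [e] at h2
      exact left_inv_eq_right_inv (mul_comm (β _) (β _) ▸ h1) h2
  let Tf : Fin (m + 1) → Matrix (Fin (n + 1)) (Fin (n + 1)) ((CI n m → ℂ) → ℂ) := fun i =>
    (T i).1.map (Function.const (CI n m → ℂ))
  have hev' : ∀ᶠ v in F, ∀ i : Fin (m + 1), ∀ a b, ((E i).1 * Kf i) a b v =
      (Kf i * (Tf i)) a b v := by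
    refine eventually_all.2 fun i => eventually_all.2 fun a => eventually_all.2 fun b => ?_
    refine Germ.coe_eq.1 (?_ : β (((E i).1 * Kf i) a b) =
      β ((Kf i * Tf i) a b))
    have e := congrFun (congrFun (congrArg Subtype.val (congrArg (mp α) (hmain i))) a) b
    have hTm : (Tf i).map β = (mp α (mp ι (T i))).1 := by
      ext c e
      show β (fun _ => (T i).1 c e) = α (ι ((T i).1 c e))
      rw [show α (ι ((T i).1 c e)) = β (evF (MvPolynomial.C ((T i).1 c e))) from hα _]
      congr 1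
      funext v
      simp [evF]
    rw [map_mul, map_mul, mul_val, mul_val] at e
    show ((((E i).1 * Kf i)).map β) a b = ((Kf i * Tf i).map β) a b
    rw [Matrix.map_mul, Matrix.map_mul, hK, hTm, show (E i).1.map β = (mp β (E i)).1 from rfl, hE]
    exact e
  obtain ⟨s, hs⟩ := (mem_iInf_of_directed hdir _).1 hev'
  rw [mem_principal] at hs
  let D : MvPolynomial (CI n m) ℂ :=
    (s : MvPolynomial (CI n m) ℂ) * ∏ i, (Xmat (n := n) i).det
  have hDne : D ≠ 0 := by
    refine mul_ne_zero (fun e => s.2 (by rw [SetLike.mem_coe, e]; exact Ideal.zero_mem _))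
      (Finset.prod_ne_zero_iff.2 fun i _ e => ?_)
    have := hdet i
    rw [← map_det' aO, e, map_zero, map_zero] at this
    exact zero_ne_one this
  refine ⟨D, hDne, fun v hv => ?_⟩
  simp only [D, map_mul, map_prod, map_det', Xmat_eval, mul_ne_zero_iff,
    Finset.prod_ne_zero_iff] at hv
  have hvd : ∀ i, (matAt v i).det ≠ 0 := fun i => hv.2 i (Finset.mem_univ i)
  refine ⟨hvd, fun u hu => ?_⟩
  let evv : ((CI n m → ℂ) → ℂ) →+* ℂ := Pi.evalRingHom (fun _ => ℂ) v
  refine ⟨mp evv (upOf dq' uq'), fun i => mpX evv (xp' i), fun j => mpJ evv (J' j),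
    (upOf_up _ _).mp, fun i => ?_⟩
  have hKu : (Kf i).map evv = (u i).1 := by
    rw [hu, map_scol, Matrix.map_map]
    show scol ((Xmat i).map (MvPolynomial.eval v)) (matAt v i).det⁻¹ = _
    rw [Xmat_eval]
  have hlamv : (fun i l => Units.map (evv : _ →* ℂ) (lamF i l)) = lam :=
    funext fun i => funext fun l => Units.ext rfl
  have hEv : mp evv (E i) = elt (fun _ => 1) (zb lam fun i => mpX evv (xp' i))
      (mp evv (upOf dq' uq')) (fun j => mpJ evv (J' j)) i := by
    simp only [E]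
    rw [mp_elt, map_one, mp_zb, hlamv]
  rw [← hEv]
  have hT' : (T i).1 = (Tf i).map evv := by ext a b; rfl
  have key : (mp evv (E i)).1 * (u i).1 = (u i).1 * (T i).1 := by
    rw [show (mp evv (E i)).1 = (E i).1.map evv from rfl, ← hKu, hT', ← Matrix.map_mul,
      ← Matrix.map_mul]
    ext a b
    exact hs (show v ∈ B s from hv.1) i a b
  have key' : mp evv (E i) * u i = u i * T i := Subtype.ext (by rw [mul_val, mul_val]; exact key)
  show u i * T i * (u i)⁻¹ = _
  rw [← key']
  group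

/-- Chain data exists on an open dense set of conjugators, given one chain of the right classes. -/
theorem exists_chain_open (lam : Fin (m + 1) → Fin n → ℂˣ) (x₀ : Fin (m + 1) → XP n ℂ)
    {q0 : SL (n + 1) ℂ} (hq : Up q0) (J₀ : ℕ → Jt n ℂ) (T S : Fin (m + 1) → SL (n + 1) ℂ)
    (hT : ∀ i, T i = S i * (diOf (lam i) * (bOf (x₀ i))⁻¹) * (S i)⁻¹) :
    ∃ Ω : Set (Fin (m + 1) → SL (n + 1) ℂ), IsOpen Ω ∧ Dense Ω ∧
      ∀ u ∈ Ω, ChainC lam fun i => u i * T i * (u i)⁻¹ := by
  obtain ⟨D, hDne, hD⟩ := exists_chain_poly lam x₀ hq J₀ T S hT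
  let r : (CI n m → ℂ) → Fin (m + 1) → Matrix (Fin (n + 1)) (Fin (n + 1)) ℂ := fun v i =>
    scol (matAt v i) (matAt v i).det⁻¹
  let point : (Fin (m + 1) → SL (n + 1) ℂ) → (Fin (m + 1) → ℂ) → CI n m → ℂ := fun u t e =>
    scol (u e.1).1 (t e.1) e.2.1 e.2.2
  have hpc : ∀ t, Continuous fun u => point u t := fun t => by
    refine continuous_pi fun e => ?_
    have hc : Continuous fun u : Fin (m + 1) → SL (n + 1) ℂ => scol (u e.1).1 (t e.1) :=
      (continuous_val.comp (continuous_apply e.1)).matrix_mul continuous_const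
    exact hc.matrix_elem e.2.1 e.2.2
  have hscol : ∀ (M : Matrix (Fin (n + 1)) (Fin (n + 1)) ℂ) (a b : ℂ),
      scol (scol M a) b = scol M (a * b) := fun M a b => by
    rw [scol, scol, scol, mul_assoc, diagonal_mul_diagonal]
    congr 2
    funext i
    refine Fin.cases ?_ (fun i => ?_) i <;> simp [Fin.succ_ne_zero]
  have hone : ∀ M : Matrix (Fin (n + 1)) (Fin (n + 1)) ℂ, scol M 1 = M := fun M => by
    rw [scol, show (Function.update 1 0 1 : Fin (n + 1) → ℂ) = (1 : Fin (n + 1) → ℂ) from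
      Function.update_eq_self (0 : Fin (n + 1)) (1 : Fin (n + 1) → ℂ), diagonal_one', mul_one]
  refine ⟨⋃ t : Fin (m + 1) → ℂ, {u | MvPolynomial.eval (point u t) D ≠ 0},
    isOpen_iUnion fun t => isOpen_ne.preimage ((MvPolynomial.continuous_eval D).comp (hpc t)),
    dense_iff_inter_open.2 fun V hV hne => ?_, fun u hu => ?_⟩
  · obtain ⟨u, hu⟩ := hne
    obtain ⟨V', hV', rfl⟩ : ∃ V', IsOpen V' ∧
        (fun (u : Fin (m + 1) → SL (n + 1) ℂ) i => (u i).1) ⁻¹' V' = V :=
      (IsInducing.piMap fun _ : Fin (m + 1) => (⟨rfl⟩ :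
        IsInducing fun A : SL (n + 1) ℂ => A.1)).isOpen_iff.1 hV
    set v₁ : CI n m → ℂ := fun e => (u e.1).1 e.2.1 e.2.2
    have hr1 : r v₁ = fun i => (u i).1 := funext fun i => by
      show scol (u i).1 (u i).1.det⁻¹ = _
      rw [(u i).2, inv_one, hone]
    have hmat : ∀ i, Continuous fun v : CI n m → ℂ => matAt v i := fun i =>
      continuous_matrix fun a b => continuous_apply _
    have hrc : ContinuousAt r v₁ := by
      refine continuousAt_pi.2 fun i => ?_
      have hdd : ContinuousAt (fun v : CI n m → ℂ => (matAt v i).det⁻¹) v₁ :=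
        (hmat i).matrix_det.continuousAt.inv₀ (by
          show (u i).1.det ≠ 0
          rw [(u i).2]; exact one_ne_zero)
      have hc : Continuous fun q : Matrix (Fin (n + 1)) (Fin (n + 1)) ℂ × ℂ => scol q.1 q.2 :=
        continuous_fst.matrix_mul ((continuous_const.update 0 continuous_snd).matrix_diagonal)
      exact hc.continuousAt.comp (f := fun v => (matAt v i, (matAt v i).det⁻¹))
        ((hmat i).continuousAt.prodMk hdd)
    obtain ⟨v, hvV, hvD⟩ : ∃ v, r v ∈ V' ∧ MvPolynomial.eval v D ≠ 0 := by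
      by_contra hcon
      push Not at hcon
      have hn : r ⁻¹' V' ∈ 𝓝 v₁ := hrc.preimage_mem_nhds (hV'.mem_nhds (by rw [hr1]; exact hu))
      rw [nhds_pi, Filter.mem_pi'] at hn
      obtain ⟨I, W, hW, hWV⟩ := hn
      refine hDne (MvPolynomial.funext_set W (fun e => infinite_of_mem_nhds (v₁ e) (hW e))
        fun w hw => ?_)
      rw [map_zero]
      exact hcon w (hWV fun e _ => hw e (Set.mem_univ e))
    obtain ⟨hvd, -⟩ := hD v hvD
    let w : Fin (m + 1) → SL (n + 1) ℂ := fun i =>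
      ⟨r v i, by rw [det_scol, mul_inv_cancel₀ (hvd i)]⟩
    refine ⟨w, hvV, Set.mem_iUnion.2 ⟨fun i => (matAt v i).det, ?_⟩⟩
    have : point w (fun i => (matAt v i).det) = v := funext fun e => by
      show scol (scol (matAt v e.1) (matAt v e.1).det⁻¹) (matAt v e.1).det e.2.1 e.2.2 = v e
      rw [hscol, inv_mul_cancel₀ (hvd e.1), hone]
      rfl
    show MvPolynomial.eval _ D ≠ 0
    rw [this]; exact hvD
  · obtain ⟨t, ht⟩ := Set.mem_iUnion.1 hu
    obtain ⟨hvd, hch⟩ := hD (point u t) ht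
    refine hch u fun i => ?_
    have hm : matAt (point u t) i = scol (u i).1 (t i) := rfl
    have hdt : (matAt (point u t) i).det = t i := by rw [hm, det_scol, (u i).2, one_mul]
    rw [hdt, hm, hscol, mul_inv_cancel₀ (hdt ▸ hvd i), hone]

end Vale.Agent.P002.Sphere
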