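import Vale.Agent.P002.Frames.Inverse
import Vale.Agent.P002.Sphere.ChainGen

/-! Closing a chain in genus zero: pointwise data of all blocks gives a parameter. -/

open Matrix

namespace Vale.Agent.P002.Sphere

open Vale.Agent.P002.Frames

variable {n m : ℕ}

/-- Chain data of the first blocks, a puncture form of the last but one and an upper triangular
last element with the right diagonal give a good parameter. -/
theorem exists_par {lam : Fin (m + 2) → Fin n → ℂˣ} {lamF : Fin n → ℂˣ}
    {c : Fin (m + 2) → SL (n + 1) ℂ} {cF R : SL (n + 1) ℂ}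
    (hch : ChainC (fun i : Fin (m + 1) => lam i.castSucc) fun i => c i.castSucc)
    (hlast : ∃ q x, Up q ∧ c (Fin.last (m + 1)) = q * tElt (lam (Fin.last (m + 1))) x * q⁻¹)
    (hR : Up R) (hcF : cF = R⁻¹)
    (hRd : ∀ i : Fin n, dg R i.castSucc * lamF i = 1)
    (hrel : (List.ofFn c).prod * cF = 1) :
    ∃ p : Par n 0 (m + 2) ℂ, p.Good lam lamF ∧ p.gau = 1 ∧
      p.outs lam = ((fun i : Fin 0 => i.elim0), c, cF) := by
  obtain ⟨q0, x, J, hq0, hc⟩ := hch
  obtain ⟨q, xl, hq, hcl⟩ := hlast
  set lam' : Fin (m + 1) → Fin n → ℂˣ := fun i => lam i.castSucc with hlam'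
  set s := st (fun _ => 1) (zb lam' x) q0 J m with hs
  have hsup := st_up J (PB := fun _ => 1) (fun _ => Up.one) (zb_up lam' x) hq0 m
  rw [← hs] at hsup
  set Zl := tZ (lam (Fin.last (m + 1))) xl with hZl
  set W := s.2.1 * q with hW
  have hWup : Up W := hsup.2.1.mul hq
  -- the product of all blocks
  have hprod : ((List.range (m + 1)).map (elt (fun _ => 1) (zb lam' x) q0 J)).prod *
      (q * (wl (n + 1) * Zl) * q⁻¹) = R := by
    have e : List.ofFn c = (List.range (m + 1)).map (elt (fun _ => 1) (zb lam' x) q0 J) ++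
        [c (Fin.last (m + 1))] := by
      rw [List.ofFn_succ', List.concat_eq_append]
      congr 1
      refine List.ext_getElem (by simp) fun j hj hj' => ?_
      simp only [List.getElem_ofFn, List.getElem_map, List.getElem_range]
      exact hc ⟨j, by simpa using hj⟩
    rw [e, List.prod_append, List.prod_cons, List.prod_nil, mul_one, hcl, tElt_eq, hcF,
      mul_inv_eq_one] at hrel
    exact hrel
  rw [prod_elt, ← hs] at hprod
  have hWlo : Lo W := by
    have hWe : W = cw' (s.1⁻¹ * R * q * Zl⁻¹ * om⁻¹) := by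
      rw [← hprod, hW]; simp only [cw', om]; group
    rw [hWe]
    exact ((((hsup.1.inv.mul hR).mul hq).mul (tZ_up _ _).inv).mul om_up.inv).cw'
  obtain ⟨t, u, ht⟩ := exists_upOf hWup
  have htW : diOf t = W := by
    refine Matrix.SpecialLinearGroup.ext _ _ fun i j => ?_
    rcases lt_trichotomy i j with h | rfl | h
    · rw [diOf_lo t i j h, hWlo i j h]
    · rw [← ht, diOf, upOf_diag, upOf_diag]
    · rw [diOf_up t i j h, hWup i j h]
  obtain ⟨qd, qu, hqd⟩ := exists_upOf hq0
  let p : Par n 0 (m + 2) ℂ :=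
    ⟨fun _ _ => 0, qd, qu, fun i => i.elim0, Fin.lastCases xl x, fun j => J j, t⟩
  have hPB : ∀ j, p.PB j = 1 := fun j => dif_neg (Nat.not_lt_zero j)
  have hZB : ∀ j, j ≤ m → p.ZB lam j = zb lam' x j := fun j hj => by
    rw [Par.ZB, dif_neg (Nat.not_lt_zero j), dif_pos (show j - 0 < m + 2 by omega), zb,
      dif_pos (show j < m + 1 by omega)]
    show tZ (lam ⟨j, _⟩) (Fin.lastCases (motive := fun _ => XP n ℂ) xl x ⟨j, _⟩) = _
    rw [show (⟨j, show j < m + 2 by omega⟩ : Fin (m + 2)) = Fin.castSucc ⟨j, by omega⟩ from rfl,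
      Fin.lastCases_castSucc]
  have hst : ∀ j ≤ m, st p.PB (p.ZB lam) p.q0 p.JN j = st (fun _ => 1) (zb lam' x) q0 J j := by
    intro j hj
    induction j with
    | zero => simp only [st, hPB, hZB 0 hj, show p.q0 = q0 from hqd]
    | succ j ih =>
      simp only [st, ih (by omega), hPB, hZB (j + 1) hj,
        show p.JN j = J j from dif_pos (show j < 0 + (m + 2) by omega)]
  have hgau : p.gau = 1 := by
    refine Matrix.SpecialLinearGroup.ext _ _ fun i j => ?_
    show (loOf fun _ _ => (0 : ℂ)).1 i j = _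
    rcases lt_trichotomy i j with h | rfl | h
    · simp [loOf, h.ne, h.not_gt]
    · simp [loOf]
    · simp [loOf, h, h.ne']
  have hfr : ∀ j ≤ m, p.frame lam j = (st (fun _ => 1) (zb lam' x) q0 J j).2.2 := fun j hj => by
    rw [Par.frame, hgau, one_mul, Par.qOf, if_pos (by omega), hst j hj]
  have hfrl : p.frame lam (m + 1) = q := by
    rw [Par.frame, hgau, one_mul, Par.qOf, if_neg (by omega), qL,
      show 0 + (m + 2) - 2 = m by omega, hst m le_rfl, show diOf p.t = W from htW, hPB, hW, ← hs]
    group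
  have hCo : ∀ i, p.outC lam i = c i := by
    intro i
    refine Fin.lastCases ?_ (fun i => ?_) i
    · rw [Par.outC, show 0 + ((Fin.last (m + 1) : Fin (m + 2)) : ℕ) = m + 1 by simp, hfrl, hcl]
      show q * tElt _ (Fin.lastCases (motive := fun _ => XP n ℂ) xl x (Fin.last (m + 1))) * q⁻¹ = _
      rw [Fin.lastCases_last]
    · have hci : c i.castSucc = _ := hc i
      rw [hci, elt_punct, Par.outC, show 0 + ((i.castSucc : Fin (m + 2)) : ℕ) = i by simp,
        hfr i (Nat.le_of_lt_succ i.isLt)]
      show _ * tElt _ (Fin.lastCases (motive := fun _ => XP n ℂ) xl x i.castSucc) * _ = _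
      rw [Fin.lastCases_castSucc]
  have hFo : p.outF lam = cF := by
    have hrp := p.relation lam (show 2 ≤ 0 + (m + 2) by omega)
    simp only [List.ofFn_zero, List.prod_nil, one_mul, hCo] at hrp
    exact mul_left_cancel (hrp.trans hrel.symm)
  have hRe : p.R lam = R := by
    have h1 := hFo
    rw [Par.outF, hgau, one_mul, inv_one, mul_one, hcF] at h1
    exact inv_injective h1
  refine ⟨p, fun i => by rw [hRe]; exact hRd i, hgau, ?_⟩
  exact Prod.ext (funext fun i => i.elim0) (Prod.ext (funext hCo) hFo)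

end Vale.Agent.P002.Sphere
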