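import Vale.Agent.P002.Pair.SmallBad
import Vale.Agent.P002.Frames.Near
import Vale.Agent.P002.Frames.Regular

/-! Near a closed chain whose last flag is in general position, the product of all but the last
two boundary matrices moves freely. -/

open Matrix Module Filter Topology

namespace Vale.Agent.P002.Sphere

open Vale.Agent.P002.Surface (Mat PMap PF mul_adj adj_mul det_adj hasDerivAt_line
  hasDerivAt_adjugate_line)
open Vale.Agent.P002.Frames (SUp)
open Vale.Agent.P002.Pair

attribute [local instance] Matrix.linftyOpNormedAddCommGroup Matrix.linftyOpNormedSpace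
  Matrix.linftyOpNormedRing Matrix.linftyOpNormedAlgebra

variable {r : ℕ}

lemma eigen_unique {A : Mat r} (hA : Frames.Cyclic A) {μ : ℂ} {u w : Fin r → ℂ} (hu : u ≠ 0)
    (h1 : A *ᵥ u = μ • u) (h2 : A *ᵥ w = μ • w) : ∃ c : ℂ, w = c • u := by
  obtain ⟨v, hv⟩ := hA
  let f : (Fin r → ℂ) →ₗ[ℂ] (Fin r → ℂ) := Matrix.mulVecLin A - μ • LinearMap.id
  have hf : ∀ x, f x = A *ᵥ x - μ • x := fun x => rfl
  let T := f.range ⊔ Submodule.span ℂ {v}
  have hpow : ∀ j : ℕ, A ^ j *ᵥ v ∈ T := by
    intro j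
    induction j with
    | zero =>
      rw [pow_zero, one_mulVec]
      exact Submodule.mem_sup_right (Submodule.mem_span_singleton_self v)
    | succ j ih =>
      have e : A ^ (j + 1) *ᵥ v = f (A ^ j *ᵥ v) + μ • (A ^ j *ᵥ v) := by
        rw [hf, sub_add_cancel, mulVec_mulVec, ← pow_succ']
      rw [e]
      exact add_mem (Submodule.mem_sup_left ⟨_, rfl⟩) (T.smul_mem μ ih)
  have htop : T = ⊤ := by
    have hcols : LinearIndependent ℂ (fun j : Fin r => A ^ (j : ℕ) *ᵥ v) :=
      Matrix.linearIndependent_cols_iff_isUnit.2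
        ((Matrix.isUnit_iff_isUnit_det _).2 (isUnit_iff_ne_zero.2 hv))
    have := hcols.span_eq_top_of_card_eq_finrank' (by simp)
    rw [eq_top_iff, ← this, Submodule.span_le]
    rintro _ ⟨j, rfl⟩
    exact hpow j
  have h3 := Submodule.finrank_add_le_finrank_add_finrank f.range (Submodule.span ℂ {v})
  rw [show f.range ⊔ Submodule.span ℂ {v} = ⊤ from htop, finrank_top, finrank_fin_fun] at h3
  have h4 := finrank_span_le_card (R := ℂ) ({v} : Set (Fin r → ℂ))
  simp only [Set.toFinset_singleton, Finset.card_singleton] at h4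
  have h5 := f.finrank_range_add_finrank_ker
  rw [finrank_fin_fun] at h5
  have hle : finrank ℂ f.ker ≤ 1 := by omega
  have hu' : u ∈ f.ker := by rw [LinearMap.mem_ker, hf, h1, sub_self]
  have hw' : w ∈ f.ker := by rw [LinearMap.mem_ker, hf, h2, sub_self]
  have hspan : Submodule.span ℂ {u} = f.ker :=
    Submodule.eq_of_le_of_finrank_le (Submodule.span_le.2 (Set.singleton_subset_iff.2 hu'))
      (by rw [finrank_span_singleton hu]; exact hle)
  rw [← hspan] at hw'
  obtain ⟨c, hc⟩ := Submodule.mem_span_singleton.1 hw'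
  exact ⟨c, hc.symm⟩

/-- The closed chain equation in the frame of the last flag. -/
def chainEq (J T : Mat r) (z : Mat r × Mat r × SUp r) : Mat r :=
  (z.2.2 : Mat r) * z.1 * (z.2.2 : Mat r).adjugate * (z.2.1 * J * z.2.1.adjugate) * T

lemma pmap_chainEq (J T : Mat r) : PMap (chainEq J T) := by
  have hb : PMap fun z : Mat r × Mat r × SUp r => (z.2.2 : Mat r) :=
    (PMap.clm (SUp r).subtypeL).comp (PMap.snd.comp PMap.snd)
  have hh : PMap fun z : Mat r × Mat r × SUp r => z.2.1 := PMap.fst.comp PMap.snd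
  exact (((hb.mul PMap.fst).mul hb.adjugate).mul ((hh.mul (PMap.const _)).mul hh.adjugate)).mul
    (PMap.const _)

lemma fderiv_line {J T : Mat r} (p w : Mat r × Mat r × SUp r) {D : Mat r}
    (h : HasDerivAt (fun z : ℂ => chainEq J T (p + z • w)) D 0) :
    fderiv ℂ (chainEq J T) p w = D := by
  have hl : HasDerivAt (fun z : ℂ => p + z • w) w 0 := by
    have := ((hasDerivAt_id (0 : ℂ)).smul_const w).const_add p
    simp only [id, one_smul] at this
    exact this
  exact ((((pmap_chainEq J T).contDiff.differentiable one_ne_zero p).hasFDerivAt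
    ).comp_hasDerivAt_of_eq (0 : ℂ) hl (by simp)).unique h

/-- Only scalars annihilate the variations of the second matrix and of the flag. -/
lemma scalar_of_flag [NeZero r] {J T M h : Mat r} (hJ : J.det = 1) (hT : T.det = 1)
    (hM : M.det = 1) (hh : h.det = 1) (hTu : ∀ i j : Fin r, j < i → T i j = 0)
    (hTc : Frames.Cyclic T) (heq : M * (h * J * h.adjugate) * T = 1)
    (hcyc : (Matrix.of fun i j : Fin r =>
      ((h * J * h.adjugate) ^ (j : ℕ) *ᵥ Pi.single (0 : Fin r) 1) i).det ≠ 0)
    {x : Mat r}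
    (hxh : ∀ Y : Mat r, Y.trace = 0 →
      (x * (M * (h * (Y * J - J * Y) * h.adjugate) * T)).trace = 0)
    (hxb : ∀ β : Mat r, (∀ i j, j < i → β i j = 0) → β.trace = 0 →
      (x * (β - M * β * M.adjugate)).trace = 0) :
    ∃ c : ℂ, x = c • 1 := by
  set c0 := h * J * h.adjugate with hc0
  have hc0d : c0.det = 1 := by rw [hc0, det_mul, det_mul, hh, hJ, det_adj hh, one_mul, one_mul]
  set z0 := h.adjugate * T * x * M * h with hz0
  have hz : J * z0 = z0 * J := by
    refine eq_of_trace_sl (trace_mul_comm _ _) fun Y hY => ?_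
    have h1 := hxh Y hY
    rw [mul_sub, sub_mul, mul_sub, sub_mul, mul_sub, trace_sub, sub_eq_zero] at h1
    refine Eq.trans ?_ (h1.trans ?_)
    · simp only [hz0, ← mul_assoc]
      rw [trace_mul_comm]; simp only [← mul_assoc]
      rw [trace_mul_comm]; simp only [← mul_assoc]
      rw [trace_mul_comm]; simp only [← mul_assoc]
      rw [trace_mul_comm]; simp only [← mul_assoc]
    · simp only [hz0, ← mul_assoc]
      rw [trace_mul_comm]; simp only [← mul_assoc]
      rw [trace_mul_comm]; simp only [← mul_assoc]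
  set y := M.adjugate * x * M with hy
  have hMa : M.adjugate = c0 * T := by
    rw [← mul_one M.adjugate, ← heq, ← mul_assoc, ← mul_assoc, adj_mul hM, one_mul]
  have hyc : y * c0 = c0 * y := by
    have e : y = h * (J * z0) * h.adjugate := by
      rw [hy, hMa, hz0, hc0]
      simp only [mul_assoc]
      rw [mul_adj hh, mul_one]
    have sw : ∀ A B : Mat r, h * A * h.adjugate * (h * B * h.adjugate) = h * (A * B) * h.adjugate :=
      fun A B => by
        simp only [mul_assoc]
        rw [← mul_assoc h.adjugate h, adj_mul hh, one_mul]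
    rw [e, hc0, sw, sw, ← mul_assoc J J z0, mul_assoc J z0 J, ← hz, mul_assoc J J z0]
  set D := x - y with hD
  have hup : ∀ β : Mat r, (∀ i j, j < i → β i j = 0) → (D * β).trace = 0 := by
    intro β hβ
    have hr' : (r : ℂ) ≠ 0 := Nat.cast_ne_zero.2 (NeZero.ne r)
    set β0 := β - (β.trace / r) • (1 : Mat r)
    have h1 := hxb β0 (fun i j hij => by simp [β0, hβ i j hij, hij.ne'])
      (by rw [trace_sub, trace_smul, trace_one, Fintype.card_fin, smul_eq_mul,
        div_mul_cancel₀ _ hr', sub_self])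
    have hD0 : D.trace = 0 := by
      rw [hD, hy, trace_sub, trace_mul_cycle, mul_adj hM, one_mul, sub_self]
    have e : (x * (β0 - M * β0 * M.adjugate)).trace = (D * β0).trace := by
      rw [hD, hy, mul_sub, sub_mul, trace_sub, trace_sub]
      congr 1
      simp only [← mul_assoc]
      rw [trace_mul_comm]; simp only [← mul_assoc]
    rw [e] at h1
    simpa [β0, mul_sub, hD0] using h1
  have hDcol : D *ᵥ Pi.single (0 : Fin r) 1 = 0 := by
    funext i
    have h1 := hup (Matrix.single (0 : Fin r) i 1) (fun a b hab => by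
      rw [Matrix.single_apply, if_neg]
      rintro ⟨rfl, rfl⟩
      exact absurd hab (by simp))
    rw [Matrix.trace_mul_single] at h1
    simpa [Matrix.mulVec_single] using h1
  set e0 : Fin r → ℂ := Pi.single 0 1 with he0
  have hTe : T *ᵥ e0 = T 0 0 • e0 := by
    funext i
    rw [he0, Matrix.mulVec_single]
    by_cases hi : i = 0
    · subst hi; simp
    · simp [hTu i 0 (Fin.pos_iff_ne_zero.2 hi), hi]
  have hxy : T * x = y * T := by
    have e : x = M * y * M.adjugate := by
      rw [hy, ← mul_assoc, ← mul_assoc, mul_adj hM, one_mul, mul_assoc, mul_adj hM, mul_one]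
    have hM' : M = T.adjugate * c0.adjugate := by
      rw [← adjugate_mul_distrib, ← hMa, adj_adj hM]
    calc T * x = (T * T.adjugate) * c0.adjugate * y * (c0 * T) := by
          rw [e, hMa, hM']; simp only [mul_assoc]
      _ = c0.adjugate * (y * c0) * T := by rw [mul_adj hT, one_mul]; simp only [mul_assoc]
      _ = y * T := by rw [hyc, ← mul_assoc, adj_mul hc0d, one_mul]
  have hye : T *ᵥ (y *ᵥ e0) = T 0 0 • (y *ᵥ e0) := by
    have h1 : T *ᵥ (D *ᵥ e0) = 0 := by rw [hDcol, mulVec_zero]
    rw [hD, sub_mulVec, mulVec_sub, mulVec_mulVec, hxy, ← mulVec_mulVec, hTe, mulVec_smul,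
      sub_eq_zero] at h1
    exact h1.symm
  have he0ne : e0 ≠ 0 := fun e => by simpa [he0] using congrFun e 0
  obtain ⟨c, hc⟩ := eigen_unique hTc he0ne hTe hye
  refine ⟨c, ?_⟩
  have hyone : y = c • 1 := by
    set Bm := Matrix.of fun i j : Fin r => (c0 ^ (j : ℕ) *ᵥ e0) i
    have hB : (y - c • (1 : Mat r)) * Bm = 0 := by
      ext i j
      have hp : y * c0 ^ (j : ℕ) = c0 ^ (j : ℕ) * y := (Commute.pow_right hyc (j : ℕ) :)
      have h1 : (y - c • (1 : Mat r)) *ᵥ (c0 ^ (j : ℕ) *ᵥ e0) = 0 := by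
        rw [sub_mulVec, mulVec_mulVec, hp, ← mulVec_mulVec, hc, mulVec_smul, smul_mulVec,
          one_mulVec, sub_self]
      exact congrFun h1 i
    have := congrArg (fun A => A * Bm.adjugate) hB
    simp only [mul_assoc, mul_adjugate, Algebra.mul_smul_comm, mul_one, zero_mul] at this
    exact sub_eq_zero.1 ((smul_eq_zero.1 this).resolve_left hcyc)
  calc x = T.adjugate * (T * x) := by rw [← mul_assoc, adj_mul hT, one_mul]
    _ = c • 1 := by rw [hxy, hyone, smul_mul_assoc, one_mul, mul_smul_comm, adj_mul hT]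

set_option backward.isDefEq.respectTransparency false in
/-- Near a closed chain in general position the product of the free matrices moves freely. -/
theorem flag_open [NeZero r] {J T M₀ h₀ : Mat r} (hJ : J.det = 1) (hT : T.det = 1)
    (hM : M₀.det = 1) (hh : h₀.det = 1) (hTu : ∀ i j : Fin r, j < i → T i j = 0)
    (hTc : Frames.Cyclic T) (heq : M₀ * (h₀ * J * h₀.adjugate) * T = 1)
    (hcyc : (Matrix.of fun i j : Fin r =>
      ((h₀ * J * h₀.adjugate) ^ (j : ℕ) *ᵥ Pi.single (0 : Fin r) 1) i).det ≠ 0)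
    {W : Set (Mat r × Mat r)} (hW : W ∈ 𝓝 (h₀, 1)) :
    ∀ᶠ M in 𝓝 M₀, M.det = 1 → ∃ h b : Mat r, (h, b) ∈ W ∧ h.det = 1 ∧ b.det = 1 ∧
      (∀ i j, j < i → b i j = 0) ∧ b * M * b.adjugate * (h * J * h.adjugate) * T = 1 := by
  classical
  have hr0 : 0 < r := Nat.pos_of_ne_zero (NeZero.ne r)
  have hr' : (r : ℂ) ≠ 0 := Nat.cast_ne_zero.2 hr0.ne'
  let one' : SUp r := ⟨1, fun i j hij => one_apply_ne hij.ne'⟩
  let p : Mat r × Mat r × SUp r := (M₀, h₀, one')
  let tlC : Mat r →L[ℂ] (tlm r).range := LinearMap.toContinuousLinearMap (tlm r).rangeRestrict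
  let pM := ContinuousLinearMap.fst ℂ (Mat r) (Mat r × SUp r)
  let ph : Mat r × Mat r × SUp r →L[ℂ] Mat r :=
    (ContinuousLinearMap.fst ℂ (Mat r) (SUp r)).comp (ContinuousLinearMap.snd ℂ (Mat r) _)
  let pb : Mat r × Mat r × SUp r →L[ℂ] Mat r := (SUp r).subtypeL.comp
    ((ContinuousLinearMap.snd ℂ (Mat r) (SUp r)).comp (ContinuousLinearMap.snd ℂ (Mat r) _))
  let G : Mat r × Mat r × SUp r → Mat r × ℂ × ℂ × (tlm r).range :=
    fun z => (pM z, (ph z).det, (pb z).det, tlC (chainEq J T z))
  set F' := fderiv ℂ (chainEq J T) p with hF'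
  have hG : HasStrictFDerivAt G (pM.prod (((detD h₀).comp ph).prod (((detD (1 : Mat r)).comp pb).prod
      (tlC.comp F')))) p :=
    pM.hasStrictFDerivAt.prodMk (((hasStrictFDerivAt_det hh).comp p ph.hasStrictFDerivAt).prodMk
      (((hasStrictFDerivAt_det det_one).comp p pb.hasStrictFDerivAt).prodMk
        (tlC.hasStrictFDerivAt.comp p
          ((pmap_chainEq J T).contDiff.contDiffAt.hasStrictFDerivAt one_ne_zero))))
  set A := pM.prod (((detD h₀).comp ph).prod (((detD (1 : Mat r)).comp pb).prod (tlC.comp F')))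
  have hsurj : A.range = ⊤ := by
    refine LinearMap.range_eq_top.2 fun y => ?_
    obtain ⟨M', dh, db, ⟨N, N0, hN⟩⟩ := y
    let C : Submodule ℂ (Mat r × Mat r × SUp r) :=
      pM.ker ⊓ ((detD h₀).comp ph).ker ⊓ ((detD (1 : Mat r)).comp pb).ker
    let w0 : Mat r × Mat r × SUp r := (M', (dh / r) • h₀, (db / r) • one')
    have hb1 : ∀ b : Mat r, detD (1 : Mat r) b = b.trace := fun b => by
      rw [detD_apply, adjugate_one, one_mul]
    obtain ⟨y, hy, c, hc⟩ := exists_add_smul_one hr0 (I := C.map F'.toLinearMap) (fun x hx => by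
      refine scalar_of_flag hJ hT hM hh hTu hTc heq hcyc (fun Y hY => ?_) fun β hβ hβ0 => ?_
      · have hmem : ((0, h₀ * Y, 0) : Mat r × Mat r × SUp r) ∈ C := by
          refine ⟨⟨rfl, ?_⟩, show detD (1 : Mat r) 0 = 0 from map_zero _⟩
          show detD h₀ (h₀ * Y) = 0
          rw [detD_apply, ← mul_assoc, adj_mul hh, one_mul, hY]
        have e : F' (0, h₀ * Y, 0) = M₀ * (h₀ * (Y * J - J * Y) * h₀.adjugate) * T := by
          refine fderiv_line p _ ?_
          have hd := ((((hasDerivAt_line h₀ Y).mul_const J).fun_mul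
            (hasDerivAt_adjugate_line h₀ hY)).const_mul M₀).mul_const T
          refine (hd.congr_deriv ?_).congr_of_eventuallyEq (Eventually.of_forall fun z => ?_)
          · simp only [zero_smul, add_zero, mul_one, mul_sub, sub_mul, mul_neg, mul_assoc,
              ← sub_eq_add_neg]
          · simp [chainEq, p, one', mul_add]
        rw [← e]
        exact hx _ ⟨_, hmem, rfl⟩
      · have hmem : ((0, 0, ⟨β, hβ⟩) : Mat r × Mat r × SUp r) ∈ C := by
          refine ⟨⟨rfl, show detD h₀ 0 = 0 from map_zero _⟩, ?_⟩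
          show detD (1 : Mat r) β = 0
          rw [hb1, hβ0]
        have e : F' (0, 0, ⟨β, hβ⟩) = β - M₀ * β * M₀.adjugate := by
          refine fderiv_line p _ ?_
          have hMa : (h₀ * J * h₀.adjugate) * T = M₀.adjugate := by
            calc _ = M₀.adjugate * M₀ * ((h₀ * J * h₀.adjugate) * T) := by
                  rw [adj_mul hM, one_mul]
              _ = M₀.adjugate := by rw [mul_assoc M₀.adjugate, ← mul_assoc M₀, heq, mul_one]
          have hd := (((hasDerivAt_line (1 : Mat r) β).mul_const M₀).fun_mul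
            (hasDerivAt_adjugate_line (1 : Mat r) hβ0)).mul_const ((h₀ * J * h₀.adjugate) * T)
          refine (hd.congr_deriv ?_).congr_of_eventuallyEq (Eventually.of_forall fun z => ?_)
          · simp only [zero_smul, add_zero, mul_one, one_mul, adjugate_one, mul_neg]
            rw [← sub_eq_add_neg, sub_mul, hMa, mul_assoc β M₀, mul_adj hM, mul_one]
          · simp [chainEq, p, one', mul_assoc, one_mul]
        rw [← e]
        exact hx _ ⟨_, hmem, rfl⟩) (N0 - F' w0)
    obtain ⟨w1, hw1, rfl⟩ := hy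
    obtain ⟨⟨h1M, h1h⟩, h1b⟩ := hw1
    refine ⟨w0 + w1, Prod.ext ?_ (Prod.ext ?_ (Prod.ext ?_ (Subtype.ext ?_)))⟩
    · show pM (w0 + w1) = M'
      rw [map_add, show pM w1 = 0 from h1M, add_zero]
      rfl
    · show (detD h₀).comp ph (w0 + w1) = dh
      rw [map_add, show (detD h₀).comp ph w1 = 0 from h1h, add_zero]
      show detD h₀ ((dh / r) • h₀) = dh
      rw [map_smul, detD_self hh, smul_eq_mul, div_mul_cancel₀ _ hr']
    · show (detD (1 : Mat r)).comp pb (w0 + w1) = db
      rw [map_add, show (detD (1 : Mat r)).comp pb w1 = 0 from h1b, add_zero]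
      show detD (1 : Mat r) ((db / r) • (1 : Mat r)) = db
      rw [map_smul, detD_self det_one, smul_eq_mul, div_mul_cancel₀ _ hr']
    · show tlm r (F' (w0 + w1)) = N
      have : F' w1 = N0 - F' w0 - c • 1 := eq_sub_of_add_eq hc.symm
      rw [map_add, this, map_add, map_sub, map_sub, map_smul, tlm_one hr0, smul_zero, hN]
      abel
  have hp : chainEq J T p = 1 := by
    simp only [chainEq, p, one', adjugate_one, one_mul, mul_one]
    exact heq
  have hroots : ∀ᶠ z in 𝓝 p, (((r : ℂ)⁻¹ * (chainEq J T z).trace) ^ r = 1 →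
      (r : ℂ)⁻¹ * (chainEq J T z).trace = 1) := by
    have hc : Continuous fun z => (r : ℂ)⁻¹ * (chainEq J T z).trace :=
      continuous_const.mul (pmap_chainEq J T).contDiff.continuous.matrix_trace
    refine (hc.continuousAt (x := p)).eventually (p := fun z => z ^ r = 1 → z = 1) ?_
    show ∀ᶠ y in 𝓝 ((r : ℂ)⁻¹ * (chainEq J T p).trace), y ^ r = 1 → y = 1
    rw [hp, trace_one, Fintype.card_fin, inv_mul_cancel₀ hr']
    have hpol : (Polynomial.X ^ r - 1 : Polynomial ℂ) ≠ 0 := Polynomial.X_pow_sub_C_ne_zero hr0 1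
    have hfin := (Polynomial.finite_setOfPred_isRoot hpol).sdiff (t := {1})
    filter_upwards [hfin.isClosed.isOpen_compl.mem_nhds (by simp)] with z hz hzr
    by_contra hne
    exact hz ⟨by simp [hzr], hne⟩
  have hWp : ∀ᶠ z in 𝓝 p, (ph z, pb z) ∈ W :=
    (ph.continuous.prodMk pb.continuous).continuousAt.preimage_mem_nhds
      (show W ∈ 𝓝 (ph p, pb p) from hW)
  have himg : G '' {z | (ph z, pb z) ∈ W ∧ (((r : ℂ)⁻¹ * (chainEq J T z).trace) ^ r = 1 →
      (r : ℂ)⁻¹ * (chainEq J T z).trace = 1)} ∈ 𝓝 (G p) :=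
    hG.map_nhds_eq_of_surj hsurj ▸ image_mem_map (hWp.and hroots)
  have hGp : G p = (M₀, 1, 1, tlC 1) := by
    simp only [G, hp]
    exact Prod.ext rfl (Prod.ext hh (Prod.ext det_one rfl))
  have hcont : Continuous fun M : Mat r => (M, (1 : ℂ), (1 : ℂ), tlC (1 : Mat r)) := by fun_prop
  filter_upwards [hcont.continuousAt.preimage_mem_nhds (x := M₀) (hGp ▸ himg)] with M hM' hMd
  obtain ⟨⟨M', h, b⟩, ⟨hzW, hzr⟩, hz⟩ := hM'
  simp only [G, Prod.mk.injEq] at hz
  obtain ⟨hzM, hzh, hzb, hzt⟩ := hz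
  have hzM' : M' = M := hzM
  subst hzM'
  have hbd : (b : Mat r).det = 1 := hzb
  have hhd : h.det = 1 := hzh
  have ht : tlm r (chainEq J T (M', h, b)) = tlm r 1 := congrArg Subtype.val hzt
  have hscal : chainEq J T (M', h, b) =
      ((r : ℂ)⁻¹ * (chainEq J T (M', h, b)).trace) • 1 := by
    rwa [tlm_one hr0, tlm_apply, sub_eq_zero] at ht
  have hd : (chainEq J T (M', h, b)).det = 1 := by
    simp [chainEq, det_mul, hbd, hhd, hMd, hJ, hT, det_adjugate]
  rw [hscal, det_smul, det_one, Fintype.card_fin, mul_one] at hd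
  refine ⟨h, b, hzW, hhd, hbd, fun i j hij => b.2 i j hij, ?_⟩
  show chainEq J T (M', h, b) = 1
  rw [hscal, hzr hd, one_smul]

end Vale.Agent.P002.Sphere
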