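import Vale.Agent.P002.Frames.Inverse
import Vale.Agent.P002.Torus.Main

/-! The gauge in genus zero: functions vanishing on the values of the chart vanish on the
conjugation orbits of these values. -/

open Matrix Filter Topology

namespace Vale.Agent.P002.Sphere

open Vale.Agent.P002.Frames
open Vale.Agent.P002.Surface (Mat PF PMap)

attribute [local instance] Matrix.linftyOpNormedAddCommGroup Matrix.linftyOpNormedSpace
  Matrix.linftyOpNormedRing Matrix.linftyOpNormedAlgebra

variable {n k : ℕ}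

/-- Changing the first conjugator on the left conjugates the chain. -/
lemma st_conj {K : Type*} [CommRing K] (PB ZB : ℕ → SL (n + 1) K) (q0 b : SL (n + 1) K)
    (J : ℕ → Jt n K) : ∀ j, st PB ZB (b * q0) J j = (b * (st PB ZB q0 J j).1,
      (st PB ZB q0 J j).2.1 * b⁻¹, b * (st PB ZB q0 J j).2.2)
  | 0 => by simp only [st, mul_assoc, _root_.mul_inv_rev]
  | j + 1 => by
    simp only [st, st_conj PB ZB q0 b J j, mul_assoc, _root_.mul_inv_rev, inv_inv]

/-- Conjugates by elements of the big cell of a value with trivial gauge are values. -/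
theorem orbit_cell {lam : Fin k → Fin n → ℂˣ} {lamF : Fin n → ℂˣ} {p : Par n 0 k ℂ}
    (hp : p.Good lam lamF) (hg : p.gau = 1) {L U : SL (n + 1) ℂ} (hL : Lo L) (hL1 : Uni L)
    (hU : Up U) :
    ∃ p' : Par n 0 k ℂ, p'.Good lam lamF ∧ p'.outs lam = ((fun i : Fin 0 => i.elim0),
      fun i => L * U * p.outC lam i * (L * U)⁻¹, L * U * p.outF lam * (L * U)⁻¹) := by
  have hq0 : Up p.q0 := p.q0_up
  obtain ⟨qd, qu, hqd⟩ := exists_upOf (hU.mul hq0)
  let p' : Par n 0 k ℂ := { p with gu := fun i j => L.1 i j, qd := qd, qu := qu }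
  have hgau : p'.gau = L := exists_loOf hL hL1
  have hq : p'.q0 = U * p.q0 := hqd
  have hst : ∀ j, st p'.PB (p'.ZB lam) p'.q0 p'.JN j = (U * (st p.PB (p.ZB lam) p.q0 p.JN j).1,
      (st p.PB (p.ZB lam) p.q0 p.JN j).2.1 * U⁻¹,
      U * (st p.PB (p.ZB lam) p.q0 p.JN j).2.2) := fun j => by
    rw [hq]; exact st_conj _ _ _ _ _ j
  have hqL : qL p'.PB (p'.ZB lam) p'.q0 p'.JN (0 + k - 2) p'.t =
      U * qL p.PB (p.ZB lam) p.q0 p.JN (0 + k - 2) p.t := by
    rw [qL, qL, hst, show p'.PB = p.PB from rfl, show p'.t = p.t from rfl]; group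
  have hqOf : ∀ j, p'.qOf lam j = U * p.qOf lam j := fun j => by
    simp only [Par.qOf]
    split_ifs
    · rw [hst]
    · exact hqL
  have hR : p'.R lam = U * p.R lam * U⁻¹ := by
    rw [Par.R, Par.R, RL, RL, hqL, hst, show p'.ZB lam = p.ZB lam from rfl,
      show p'.t = p.t from rfl]
    group
  refine ⟨p', fun i => ?_, Prod.ext (funext fun i => i.elim0)
    (Prod.ext (funext fun i => ?_) ?_)⟩
  · have hRu := p.R_up lam
    have e : dg (U * p.R lam * U⁻¹) i.castSucc = dg (p.R lam) i.castSucc := by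
      rw [dg_mul (hU.mul hRu) hU.inv, dg_mul hU hRu]
      linear_combination dg (p.R lam) i.castSucc * dg_inv_mul hU i.castSucc
    rw [hR, e]; exact hp i
  · show p'.outC lam i = _
    simp only [Par.outC, Par.frame, hgau, hg, hqOf, show p'.X = p.X from rfl]
    group
  · show p'.outF lam = _
    simp only [Par.outF, hgau, hg, hR]
    group

/-- A polynomial vanishing on all values of the chart vanishes on the orbit of each value with
trivial gauge. -/
theorem orbit_vanish {lam : Fin k → Fin n → ℂˣ} {lamF : Fin n → ℂˣ} {p : Par n 0 k ℂ}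
    (hp : p.Good lam lamF) (hg : p.gau = 1) {f : MvPolynomial (MC 0 (k + 1) (n + 1)) ℂ}
    (hf : ∀ p' : Par n 0 k ℂ, p'.Good lam lamF →
      MvPolynomial.eval (ent (toMat (p'.outs lam))) f = 0)
    (K : Mat (n + 1)) (hK : K.det = 1) :
    MvPolynomial.eval (ent (((fun i : Fin 0 => i.elim0),
      fun i => K * (toMat (p.outs lam)).2 i * K.adjugate) : MT 0 (k + 1) (n + 1))) f = 0 := by
  set T := (toMat (p.outs lam)).2 with hT
  let Φ : Mat (n + 1) → Surface.Tup 0 (n + 1) × (Fin (k + 1) → Mat (n + 1)) := fun M =>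
    ((fun i : Fin 0 => i.elim0), fun i => M * T i * M.adjugate)
  have hΦ : PMap Φ := (PMap.const _).prodMk
    (PMap.pi fun i => (PMap.id'.mul (PMap.const _)).mul PMap.id'.adjugate)
  have hF : (fun M => MvPolynomial.eval (ent (Φ M)) f) ∈ PF (Mat (n + 1)) :=
    Surface.PF.comp (Torus.pf_ent f) hΦ
  obtain ⟨c, hc, hcd, hc0, hc1⟩ := Surface.exists_curve (A := (1 : Mat (n + 1))) det_one hK
  let cS : ℂ → SL (n + 1) ℂ := fun z => ⟨c z, hcd z⟩
  have hcS : Continuous cS := continuous_induced_rng.2 hc.continuous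
  have hcell := lu_near (n := n + 1) (L₀ := 1) (U₀ := 1) Lo.one Uni.one Up.one
    (V := Set.univ) univ_mem
  rw [one_mul] at hcell
  have ht : Tendsto cS (𝓝 0) (𝓝 1) := by
    have := hcS.tendsto 0
    rwa [show cS 0 = 1 from Subtype.ext (by rw [one_val]; exact hc0)] at this
  have hev : ∀ᶠ z in 𝓝 (0 : ℂ), MvPolynomial.eval (ent (Φ (c z))) f = 0 := by
    filter_upwards [ht.eventually hcell] with z hz
    obtain ⟨L, U, hL, hL1, hU, e, -⟩ := hz
    obtain ⟨p', hp', ho⟩ := orbit_cell hp hg hL hL1 hU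
    have hv : Φ (c z) = toMat (p'.outs lam) := by
      rw [ho, show c z = (L * U).1 from congrArg Subtype.val e]
      refine Prod.ext (funext fun i => i.elim0) (funext fun i => ?_)
      refine Fin.lastCases ?_ (fun i => ?_) i
      · simp only [Φ, hT, toMat, Par.outs, Fin.snoc_last, mul_val, inv_apply]
      · simp only [Φ, hT, toMat, Par.outs, Fin.snoc_castSucc, mul_val, inv_apply]
    rw [hv]; exact hf p' hp'
  have hd : Differentiable ℂ fun z => MvPolynomial.eval (ent (Φ (c z))) f :=
    ((Surface.PF.contDiff hF).comp hc).differentiable one_ne_zero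
  have := (show AnalyticOnNhd ℂ (fun z => MvPolynomial.eval (ent (Φ (c z))) f) Set.univ from
    fun z _ => hd.analyticAt z).eqOn_zero_of_preconnected_of_eventuallyEq_zero
    isPreconnected_univ (Set.mem_univ (0 : ℂ)) hev (Set.mem_univ (1 : ℂ))
  simpa [Φ, hc1] using this

end Vale.Agent.P002.Sphere
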