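import Vale.Agent.P002.Frames.ChartNear

/-! Inverting the chart algebraically along a homomorphism that detects units. -/

open Matrix

namespace Vale.Agent.P002.Sphere

open Vale.Agent.P002.Frames

variable {O : Type*} [CommRing O] {n : ℕ}

/-- A homomorphism to `ℂ` with a section that detects units. -/
structure Det (φ : O →+* ℂ) (ι : ℂ →+* O) : Prop where
  sect : ∀ z, φ (ι z) = z
  unit : ∀ a, φ a ≠ 0 → IsUnit a

variable {φ : O →+* ℂ} {ι : ℂ →+* O}

lemma Det.mp_sect (h : Det φ ι) {m : ℕ} (A : SL m ℂ) : mp φ (mp ι A) = A :=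
  Matrix.SpecialLinearGroup.ext _ _ fun _ _ => h.sect _

lemma lu_unique {K : Type*} [CommRing K] {m : ℕ} {L U L' U' : SL m K} (hL : Lo L) (hL1 : Uni L)
    (hU : Up U) (hL' : Lo L') (hL1' : Uni L') (hU' : Up U') (h : L * U = L' * U') :
    L = L' ∧ U = U' := by
  have e : L'⁻¹ * L = U' * U⁻¹ := by
    rw [eq_mul_inv_iff_mul_eq, mul_assoc, h]; group
  have h1 : L'⁻¹ * L = 1 := eq_one_of_up_lo (e ▸ hU'.mul hU.inv) (hL'.inv.mul hL)
    (Uni.mul_lo hL'.inv hL (hL1'.inv_lo hL') hL1)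
  have h2 : L' = L := inv_mul_eq_one.1 h1
  subst h2
  exact ⟨rfl, mul_left_cancel h⟩

/-- Triangular decompositions of matrices lift. -/
lemma lu_aux (h : Det φ ι) : ∀ (m : ℕ) (M : Matrix (Fin m) (Fin m) O)
    (L₀ U₀ : Matrix (Fin m) (Fin m) ℂ), (∀ i j, i < j → L₀ i j = 0) → (∀ i, L₀ i i = 1) →
    (∀ i j, j < i → U₀ i j = 0) → (∀ i, U₀ i i ≠ 0) → M.map φ = L₀ * U₀ →
    ∃ L U : Matrix (Fin m) (Fin m) O, (∀ i j, i < j → L i j = 0) ∧ (∀ i, L i i = 1) ∧
      (∀ i j, j < i → U i j = 0) ∧ M = L * U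
  | 0, _, _, _, _, _, _, _, _ => ⟨1, 1, fun i => i.elim0, fun i => i.elim0, fun i => i.elim0,
      Matrix.ext fun i => i.elim0⟩
  | m + 1, M, L₀, U₀, hL, hL1, hU, hU0, he => by
    have hM : ∀ i j, φ (M i j) = ∑ k, L₀ i k * U₀ k j := fun i j => by
      have := congrFun (congrFun he i) j
      rwa [Matrix.map_apply, Matrix.mul_apply] at this
    have hrow : ∀ j, φ (M 0 j) = U₀ 0 j := fun j => by
      rw [hM, Fin.sum_univ_succ, hL1, one_mul, Finset.sum_eq_zero fun k _ => by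
        rw [hL _ _ (Fin.succ_pos k), zero_mul], add_zero]
    have hcol : ∀ i, φ (M i 0) = L₀ i 0 * U₀ 0 0 := fun i => by
      rw [hM, Fin.sum_univ_succ, Finset.sum_eq_zero fun k _ => by
        rw [hU _ _ (Fin.succ_pos k), mul_zero], add_zero]
    obtain ⟨a, ha⟩ := h.unit (M 0 0) (by rw [hrow]; exact hU0 0)
    let S : Matrix (Fin m) (Fin m) O := Matrix.of fun i j =>
      M i.succ j.succ - M i.succ 0 * ((a⁻¹ : Oˣ) : O) * M 0 j.succ
    have hai : φ ((a⁻¹ : Oˣ) : O) * U₀ 0 0 = 1 := by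
      rw [← hrow, ← ha, ← map_mul, Units.inv_mul, map_one]
    obtain ⟨L', U', hL', hL1', hU', hS⟩ := lu_aux h m S (L₀.submatrix Fin.succ Fin.succ)
      (U₀.submatrix Fin.succ Fin.succ) (fun i j hij => hL _ _ (Fin.succ_lt_succ_iff.2 hij))
      (fun i => hL1 _) (fun i j hij => hU _ _ (Fin.succ_lt_succ_iff.2 hij)) (fun i => hU0 _) (by
        ext i j
        rw [Matrix.map_apply, Matrix.mul_apply]
        simp only [S, Matrix.of_apply, map_sub, map_mul, submatrix_apply]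
        rw [hM, hcol, hrow, Fin.sum_univ_succ]
        linear_combination (-(L₀ i.succ 0) * U₀ 0 j.succ) * hai)
    let L : Matrix (Fin (m + 1)) (Fin (m + 1)) O := Matrix.of (Fin.cons (Pi.single 0 1)
      fun i => Fin.cons (M i.succ 0 * ((a⁻¹ : Oˣ) : O)) (L' i))
    let U : Matrix (Fin (m + 1)) (Fin (m + 1)) O := Matrix.of (Fin.cons (M 0)
      fun i => Fin.cons 0 (U' i))
    refine ⟨L, U, fun i j hij => ?_, fun i => ?_, fun i j hij => ?_, ?_⟩
    · revert hij
      refine Fin.cases ?_ (fun i => ?_) i <;> refine Fin.cases ?_ (fun j => ?_) j <;> intro hij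
      · exact absurd hij (lt_irrefl _)
      · simp [L]
      · exact absurd hij (by simp)
      · simpa [L] using hL' _ _ (Fin.succ_lt_succ_iff.1 hij)
    · refine Fin.cases ?_ (fun i => ?_) i
      · simp [L]
      · simpa [L] using hL1' i
    · revert hij
      refine Fin.cases ?_ (fun i => ?_) i <;> refine Fin.cases ?_ (fun j => ?_) j <;> intro hij
      · exact absurd hij (lt_irrefl _)
      · exact absurd hij (by simp)
      · simp [U]
      · simpa [U] using hU' _ _ (Fin.succ_lt_succ_iff.1 hij)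
    · ext i j
      rw [Matrix.mul_apply, Fin.sum_univ_succ]
      refine Fin.cases ?_ (fun i => ?_) i
      · simp [L, U]
      · refine Fin.cases ?_ (fun j => ?_) j
        · simp [L, U, ← ha, mul_assoc]
        · have := congrFun (congrFun hS i) j
          rw [Matrix.mul_apply] at this
          simp only [S, Matrix.of_apply] at this
          simp only [L, U, Matrix.of_apply, Fin.cons_succ, Fin.cons_zero]
          rw [← this]
          ring

/-- Lower unitriangular times upper triangular decompositions lift. -/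
lemma lu_lift (h : Det φ ι) {m : ℕ} {X : SL m O} {L₀ U₀ : SL m ℂ} (hL : Lo L₀) (hL1 : Uni L₀)
    (hU : Up U₀) (he : mp φ X = L₀ * U₀) :
    ∃ L U, Lo L ∧ Uni L ∧ Up U ∧ X = L * U ∧ mp φ L = L₀ ∧ mp φ U = U₀ := by
  have he' : X.1.map φ = L₀.1 * U₀.1 := by rw [← mul_val, ← he]; rfl
  obtain ⟨L, U, h1, h2, h3, h4⟩ := lu_aux h m X.1 L₀.1 U₀.1 hL hL1 hU
    (fun i => left_ne_zero_of_mul_eq_one (hU.inv_diag i)) he'
  have hLd : L.det = 1 := by
    rw [det_of_isLowerTriangular]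
    · exact Finset.prod_eq_one fun i _ => h2 i
    · exact fun i j hij => h1 i j hij
  have hUd : U.det = 1 := by
    have := X.2
    rwa [h4, det_mul, hLd, one_mul] at this
  obtain ⟨Ls, hLs⟩ : ∃ Ls : SL m O, Ls.1 = L := ⟨⟨L, hLd⟩, rfl⟩
  obtain ⟨Us, hUs⟩ : ∃ Us : SL m O, Us.1 = U := ⟨⟨U, hUd⟩, rfl⟩
  have hlo : Lo Ls := fun i j hij => by rw [hLs]; exact h1 i j hij
  have huni : Uni Ls := fun i => by rw [hLs]; exact h2 i
  have hup : Up Us := fun i j hij => by rw [hUs]; exact h3 i j hij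
  have hX : X = Ls * Us := Subtype.ext (by rw [mul_val, hLs, hUs]; exact h4)
  have hlo' : Lo (mp φ Ls) := fun i j hij => by rw [mp_apply, hlo i j hij, map_zero]
  obtain ⟨e1, e2⟩ := lu_unique hlo' (fun i => by rw [mp_apply, huni i, map_one]) hup.mp hL hL1 hU
    (by rw [← map_mul, ← hX, he])
  exact ⟨Ls, Us, hlo, huni, hup, hX, e1, e2⟩

/-- Elements of the big cell lift with their factors. -/
lemma cell_lift (h : Det φ ι) {m : ℕ} {X : SL m O} {P₀ Z₀ : SL m ℂ} (hP : Up P₀) (hZ : Up Z₀)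
    (he : mp φ X = P₀ * wl m * Z₀) :
    ∃ P Z, Up P ∧ Up Z ∧ X = P * wl m * Z ∧ mp φ P = P₀ ∧ mp φ Z = Z₀ := by
  set d := diagPart hP with hd
  obtain ⟨L, U, hL, hL1, hU, hX, eL, eU⟩ := lu_lift h (X := (wl m)⁻¹ * X)
    (L₀ := cw' (P₀ * d⁻¹)) (U₀ := cw' d * Z₀) (hP.mul (diagPart_up hP).inv).cw'
    (diagPart_inv_uni hP).cw' ((diagPart_lo hP).cw'.mul hZ)
    (by rw [map_mul, map_inv, mp_wl, he]; simp only [cw']; group)
  have hdlo : Lo (mp ι d) := fun i j hij => by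
    rw [mp_apply, diagPart_lo hP i j hij, map_zero]
  refine ⟨cw L * mp ι d, (cw' (mp ι d))⁻¹ * U, hL.cw.mul (diagPart_up hP).mp,
    hdlo.cw'.inv.mul hU, ?_, ?_, ?_⟩
  · have : X = wl m * (L * U) := by rw [← hX]; group
    rw [this]; simp only [cw, cw']; group
  · rw [map_mul, mp_cw, eL, cw_cw', h.mp_sect]; group
  · rw [map_mul, map_inv, mp_cw', eU, h.mp_sect]; group

lemma bid_lo' {K : Type*} [CommRing K] (x : Fin n → Kˣ) : Lo (bid x) ∧ Uni (bid x) :=
  ⟨fun _ _ hij => bidM_upper hij, bidM_diag x⟩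

lemma bid_inv_succ' {K : Type*} [CommRing K] (x : Fin n → Kˣ) (i : Fin n) :
    ((bid x)⁻¹).1 i.succ 0 = -(x i : K) * ((bid x)⁻¹).1 i.castSucc 0 := by
  have h := congrFun (congrFun (congrArg Subtype.val (mul_inv_cancel (bid x))) i.succ) 0
  rw [mul_val, one_val, Matrix.mul_apply, one_apply_ne (Fin.succ_ne_zero i)] at h
  simp only [bid_succ_apply, add_mul, Finset.sum_add_distrib, ite_mul, one_mul, zero_mul,
    Finset.sum_ite_eq, Finset.mem_univ, if_true] at h
  rw [Finset.sum_eq_single i.castSucc (fun k _ hk => by simp [Pi.single_eq_of_ne hk]) (by simp),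
    Pi.single_eq_same] at h
  linear_combination h

lemma mp_bid (f : O →+* ℂ) (x : Fin n → Oˣ) :
    mp f (bid x) = bid fun i => Units.map (f : O →* ℂ) (x i) := by
  refine Matrix.SpecialLinearGroup.ext _ _ fun i j => ?_
  rw [mp_apply]
  refine Fin.cases ?_ (fun i => ?_) i <;>
    simp [bid, bidM, Pi.single_apply, Matrix.one_apply, apply_ite f]

/-- Lower unitriangular elements over a chart point are chart elements. -/
lemma chart_lift (h : Det φ ι) : ∀ (n : ℕ) (x₀ : XP n ℂ) (M : SL (n + 1) O), Lo M → Uni M →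
    mp φ M = Vmat n x₀ → ∃ x : XP n O, Vmat n x = M
  | 0, _, M, hlo, huni, _ => ⟨fun i => i.elim0,
      (eq_one_of_up_lo (fun i j hij => absurd (Fin.lt_def.1 hij) (by omega)) hlo huni).symm⟩
  | n + 1, x₀, M, hlo, huni, he => by
    have hV0 : Vmat (n + 1) x₀ = ext1 (Vmat n (tailX x₀)) * bid (x₀ 0) := rfl
    have hv : ∀ i, φ ((M⁻¹).1 i 0) = ((bid (x₀ 0))⁻¹).1 i 0 := fun i => by
      rw [← mp_apply φ, map_inv, he, hV0, _root_.mul_inv_rev, ← map_inv, ext1_col_zero]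
    choose w hw using fun i => h.unit ((M⁻¹).1 i 0) (by rw [hv]; exact bid_inv_ne _ _)
    let y : Fin (n + 1) → Oˣ := fun i => -(w i.succ * (w i.castSucc)⁻¹)
    have hcol : ∀ i, ((bid y)⁻¹).1 i 0 = (M⁻¹).1 i 0 := by
      intro i
      induction i using Fin.induction with
      | zero =>
        rw [(bid_lo' y).2.inv_lo (bid_lo' y).1]
        exact (huni.inv_lo hlo 0).symm
      | succ i ih =>
        rw [bid_inv_succ', ih, ← hw, ← hw]
        simp only [y, Units.val_neg, Units.val_mul, neg_neg, mul_assoc, Units.inv_mul, mul_one]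
    set M' := M * (bid y)⁻¹ with hM'
    have hlo' : Lo M' := hlo.mul (bid_lo' y).1.inv
    have huni' : Uni M' :=
      Uni.mul_lo hlo (bid_lo' y).1.inv huni ((bid_lo' y).2.inv_lo (bid_lo' y).1)
    have hcol' : ∀ i, M'.1 i 0 = (1 : SL (n + 2) O).1 i 0 := fun i => by
      rw [hM', ← mul_inv_cancel M, mul_val, mul_val, Matrix.mul_apply, Matrix.mul_apply]
      exact Finset.sum_congr rfl fun k _ => by rw [hcol k]
    have hext : M'.1 = extM (M'.1.submatrix Fin.succ Fin.succ) := by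
      ext i j
      refine Fin.cases ?_ (fun j => ?_) j
      · rw [hcol' i, one_val]
        refine Fin.cases ?_ (fun i => ?_) i <;> simp [Fin.succ_ne_zero]
      · refine Fin.cases ?_ (fun i => ?_) i
        · rw [extM_zero_succ]
          exact hlo' _ _ (Fin.succ_pos j)
        · simp
    have hdet : (M'.1.submatrix Fin.succ Fin.succ).det = 1 := by
      rw [← det_extM, ← hext]
      exact M'.2
    obtain ⟨M₁, hM₁v⟩ : ∃ M₁ : SL (n + 1) O, M₁.1 = M'.1.submatrix Fin.succ Fin.succ :=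
      ⟨⟨_, hdet⟩, rfl⟩
    have hM₁ : ext1 M₁ = M' := Subtype.ext (by rw [ext1_val, hM₁v, ← hext])
    have hy : (fun i => Units.map (φ : O →* ℂ) (y i)) = x₀ 0 := by
      funext i
      refine Units.ext ?_
      have hne : ∀ i, φ (w i) ≠ 0 := fun i => by
        rw [hw, hv]; exact bid_inv_ne _ _
      have hs := bid_inv_succ (x₀ 0) i
      rw [← hv, ← hv, ← hw, ← hw] at hs
      have e : φ ((w i.castSucc)⁻¹ : Oˣ) * φ (w i.castSucc) = 1 := by
        rw [← map_mul, Units.inv_mul, map_one]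
      simp only [y, Units.coe_map, MonoidHom.coe_coe, Units.val_neg, Units.val_mul, map_neg,
        map_mul]
      rw [hs]
      linear_combination (x₀ 0 i : ℂ) * e
    have he₁ : mp φ M₁ = Vmat n (tailX x₀) := by
      have e : mp φ M' = ext1 (Vmat n (tailX x₀)) := by
        rw [hM', map_mul, map_inv, he, mp_bid, hy, hV0, mul_inv_cancel_right]
      rw [← hM₁, mp_ext1] at e
      refine Matrix.SpecialLinearGroup.ext _ _ fun i j => ?_
      have := congrFun (congrFun (congrArg Subtype.val e) i.succ) j.succ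
      rwa [ext1_val, ext1_val, extM_succ_succ, extM_succ_succ] at this
    obtain ⟨x₁, hx₁⟩ := chart_lift h n (tailX x₀) M₁
      (fun i j hij => by rw [hM₁v]; exact hlo' i.succ j.succ (Fin.succ_lt_succ_iff.2 hij))
      (fun i => by rw [hM₁v]; exact huni' i.succ) he₁
    refine ⟨fun i j => Fin.cases (motive := fun _ => Oˣ) (y j)
      (fun i' => Fin.cases (motive := fun _ => Oˣ) 1 (fun j' => x₁ i' j') j) i, ?_⟩
    show ext1 (Vmat n fun i j => x₁ i j) * bid (fun j => y j) = M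
    rw [show (fun i j => x₁ i j) = x₁ from rfl, hx₁, hM₁, hM', inv_mul_cancel_right]

lemma chart_factors {x x' : XP n ℂ} (h : Vmat n x = Vmat n x') :
    bOf x = bOf x' ∧ betaOf x = betaOf x' :=
  bOf_unique (bOf_up x') (bOf_uni x') (betaOf_up x') (h.trans (chart_eq x'))

lemma jm_factors {J J' : Jt n ℂ} (h : jm J = jm J') :
    diOf J.1 = diOf J'.1 ∧ bOf J.2 = bOf J'.2 ∧ betaOf J.2 = betaOf J'.2 := by
  have hd : diOf J.1 = diOf J'.1 :=
    (diagPart_jm J (jm_up J') h).symm.trans (diagPart_jm J' (jm_up J') rfl)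
  refine ⟨hd, chart_factors ?_⟩
  simp only [jm, hd, mul_left_cancel_iff] at h
  rw [← cw_cw' (Vmat n J.2), h, cw_cw']

/-- Upper triangular elements over a joint are joints. -/
lemma jm_lift (h : Det φ ι) {M : SL (n + 1) O} (hM : Up M) {J₀ : Jt n ℂ}
    (he : mp φ M = jm J₀) : ∃ J : Jt n O, jm J = M := by
  obtain ⟨d, u, hdu⟩ := exists_upOf hM
  have hdd : ∀ i, (diOf d).1 i i = M.1 i i := fun i => by
    rw [← hdu, diOf, upOf_diag, upOf_diag]
  have hd : mp φ (diOf d) = diOf J₀.1 := by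
    refine Matrix.SpecialLinearGroup.ext _ _ fun i j => ?_
    rcases lt_trichotomy i j with hij | rfl | hij
    · rw [mp_apply, diOf_lo d i j hij, map_zero, diOf_lo _ i j hij]
    · rw [mp_apply, hdd, ← mp_apply φ, he, jm_diag]
    · rw [mp_apply, diOf_up d i j hij, map_zero, diOf_up _ i j hij]
  have huni : Uni ((diOf d)⁻¹ * M) := fun i => by
    rw [(diOf_up d).inv.mul_diag hM, ← hdd, mul_comm]
    exact (diOf_up d).inv_diag i
  obtain ⟨x, hx⟩ := chart_lift h n J₀.2 _ ((diOf_up d).inv.mul hM).cw huni.cw (by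
    rw [mp_cw, map_mul, map_inv, hd, he, jm]
    simp only [inv_mul_cancel_left, cw_cw'])
  refine ⟨(d, x), ?_⟩
  rw [jm, hx, cw'_cw, mul_inv_cancel_left]

lemma jm_mp_eq {J₀ : Jt n ℂ} {J : Jt n O} (e : mp φ (jm J) = jm J₀) :
    mp φ (diOf J.1) = diOf J₀.1 ∧ mp φ (bOf J.2) = bOf J₀.2 ∧
      mp φ (betaOf J.2) = betaOf J₀.2 := by
  rw [mp_jm] at e
  obtain ⟨e1, e2, e3⟩ := jm_factors e
  exact ⟨(mp_diOf φ _).trans e1, (mp_chart φ _).1.trans e2, (mp_chart φ _).2.trans e3⟩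

/-- Chains lift. -/
lemma joints_lift (h : Det φ ι) {PB ZB Q : ℕ → SL (n + 1) O} (hP : ∀ j, Up (PB j))
    (hZ : ∀ j, Up (ZB j)) (hQ : ∀ j, Up (Q j)) (J₀ : ℕ → Jt n ℂ) (m : ℕ)
    (he : ∀ j ≤ m, (st (fun j => mp φ (PB j)) (fun j => mp φ (ZB j)) (mp φ (Q 0)) J₀ j).2.2 =
      mp φ (Q j)) :
    ∃ J : ℕ → Jt n O, (∀ j ≤ m, (st PB ZB (Q 0) J j).2.2 = Q j) ∧
      mp φ (st PB ZB (Q 0) J m).2.1 =
        (st (fun j => mp φ (PB j)) (fun j => mp φ (ZB j)) (mp φ (Q 0)) J₀ m).2.1 := by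
  induction m with
  | zero =>
    refine ⟨fun _ => (1, 1), fun j hj => ?_, ?_⟩
    · obtain rfl : j = 0 := by omega
      rfl
    · simp only [st, map_mul, map_inv]
  | succ m ih =>
    obtain ⟨J, hJ, hs⟩ := ih fun j hj => he j (by omega)
    set t := st PB ZB (Q 0) J m with ht
    set s := st (fun j => mp φ (PB j)) (fun j => mp φ (ZB j)) (mp φ (Q 0)) J₀ m with hs'
    have hMup : Up (t.2.1 * Q (m + 1) * PB (m + 1)) :=
      ((st_up J hP hZ (hQ 0) m).2.1.mul (hQ _)).mul (hP _)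
    have hM : mp φ (t.2.1 * Q (m + 1) * PB (m + 1)) = jm (J₀ m) := by
      rw [map_mul, map_mul, hs, ← he (m + 1) le_rfl]
      show s.2.1 * (s.2.1⁻¹ * jm (J₀ m) * (mp φ (PB (m + 1)))⁻¹) * mp φ (PB (m + 1)) = _
      group
    obtain ⟨Jm, hJm⟩ := jm_lift h hMup hM
    obtain ⟨-, -, e3⟩ := jm_mp_eq (J := Jm) (hJm ▸ hM)
    set J' := Function.update J m Jm
    have hcg : ∀ j ≤ m, st PB ZB (Q 0) J' j = st PB ZB (Q 0) J j := fun j hj =>
      st_congr fun i hi => Function.update_of_ne (by omega) _ _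
    have hq : (st PB ZB (Q 0) J' (m + 1)).2.2 = Q (m + 1) := by
      show (st PB ZB (Q 0) J' m).2.1⁻¹ * jm (J' m) * (PB (m + 1))⁻¹ = Q (m + 1)
      rw [hcg m le_rfl, show J' m = Jm from Function.update_self .., hJm, ← ht]
      group
    refine ⟨J', fun j hj => ?_, ?_⟩
    · rcases Nat.lt_or_ge j (m + 1) with hj' | hj'
      · rw [hcg j (by omega)]; exact hJ j (by omega)
      · obtain rfl : j = m + 1 := by omega
        exact hq
    · show mp φ (betaOf (J' m).2 * om * (ZB (m + 1) * ((st PB ZB (Q 0) J' (m + 1)).2.2)⁻¹)) = _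
      rw [hq, show J' m = Jm from Function.update_self .., map_mul, map_mul, map_mul, map_inv,
        mp_om, e3, ← he (m + 1) le_rfl]
      rfl

/-- Puncture elements lift: the conjugate of the triangular part of the base by any lift of the
base conjugator. -/
lemma punct_lift (h : Det φ ι) (lam : Fin n → ℂˣ) (x₀ : XP n ℂ) {q₀ : SL (n + 1) ℂ}
    (hq : Up q₀) (κ : SL (n + 1) O) (hκ : mp φ κ = q₀ * (Vmat n x₀)⁻¹) :
    ∃ q x, Up q ∧
      κ * mp ι (diOf lam * (bOf x₀)⁻¹) * κ⁻¹ =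
        q * tElt (fun i => Units.map (ι : ℂ →* O) (lam i)) x * q⁻¹ ∧
      mp φ q = q₀ ∧ mp φ (tZ (fun i => Units.map (ι : ℂ →* O) (lam i)) x) = tZ lam x₀ := by
  set lamO : Fin n → Oˣ := fun i => Units.map (ι : ℂ →* O) (lam i) with hlam
  set a : SL (n + 1) O := mp ι (diOf lam * (bOf x₀)⁻¹) with ha
  have hau : Up a := ((diOf_up lam).mul (bOf_up x₀).inv).mp
  set C := κ * a * κ⁻¹ with hC
  have hCb : mp φ C = q₀ * wl (n + 1) * (tZ lam x₀ * q₀⁻¹) := by
    rw [hC, map_mul, map_mul, map_inv, hκ, ha, h.mp_sect,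
      show q₀ * wl (n + 1) * (tZ lam x₀ * q₀⁻¹) = q₀ * tElt lam x₀ * q₀⁻¹ by
        rw [tElt_eq]; group, tElt]
    group
  obtain ⟨P, Z, hP, hZ, hCeq, hPφ, hZφ⟩ := cell_lift h hq ((tZ_up lam x₀).mul hq.inv) hCb
  obtain ⟨L, U, hL, hL1, hU, hLU, hLφ, -⟩ := lu_lift h (X := P⁻¹ * κ) (L₀ := (Vmat n x₀)⁻¹)
    (U₀ := 1) (Vmat_lo n x₀).1.inv ((Vmat_lo n x₀).2.inv_lo (Vmat_lo n x₀).1) Up.one
    (by rw [map_mul, map_inv, hκ, hPφ]; group)
  obtain ⟨x, hx⟩ := chart_lift h n x₀ L⁻¹ hL.inv (hL1.inv_lo hL) (by rw [map_inv, hLφ, inv_inv])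
  set a' := U * a * U⁻¹ with ha'
  have hau' : Up a' := (hU.mul hau).mul hU.inv
  have hC' : P⁻¹ * C * P = (Vmat n x)⁻¹ * a' * Vmat n x := by
    rw [hC, ha', hx, inv_inv, show κ = P * (L * U) by rw [← hLU]; group]
    group
  have hCw : P⁻¹ * C * P = wl (n + 1) * (Z * P) := by rw [hCeq]; group
  have hlow : Lo (a' * bOf x) := by
    have e : a' * bOf x = Vmat n x * cw ((Z * P) * (betaOf x)⁻¹) := by
      have e1 : a' = Vmat n x * (P⁻¹ * C * P) * (Vmat n x)⁻¹ := by rw [hC']; group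
      rw [e1, hCw]
      conv_lhs => enter [1, 2, 1]; rw [chart_eq]
      simp only [cw]
      group
    rw [e]
    exact (Vmat_lo n x).1.mul ((hZ.mul hP).mul (betaOf_up x).inv).cw
  have hdl : diOf lamO = mp ι (diOf lam) := (mp_diOf ι lam).symm
  have hdiag : a' * bOf x = diOf lamO := by
    refine Matrix.SpecialLinearGroup.ext _ _ fun i j => ?_
    rcases lt_trichotomy i j with hij | rfl | hij
    · rw [hlow i j hij, diOf_lo lamO i j hij]
    · rw [hau'.mul_diag (bOf_up x), bOf_uni, mul_one, (hU.mul hau).mul_diag hU.inv,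
        hU.mul_diag hau, mul_right_comm, hU.inv_diag, one_mul, ha, mp_apply,
        (diOf_up lam).mul_diag (bOf_up x₀).inv, (bOf_uni x₀).inv_up (bOf_up x₀), mul_one, hdl,
        mp_apply]
    · rw [(hau'.mul (bOf_up x)) i j hij, diOf_up lamO i j hij]
  have hCt : P⁻¹ * C * P = tElt lamO x := by
    rw [hC', tElt, ← hdiag]; group
  have htZ : tZ lamO x = Z * P := by
    rw [hCw, tElt_eq] at hCt
    exact (mul_left_cancel hCt).symm
  refine ⟨P, x, hP, ?_, hPφ, ?_⟩
  · rw [← hCt]; group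
  · rw [htZ, map_mul, hZφ, hPφ]; group

end Vale.Agent.P002.Sphere
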