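import Vale.Agent.P002.Sphere.Near
import Vale.Agent.P002.Sphere.Bad
import Vale.Agent.P002.Sphere.Gauge

/-! Spheres with at least four punctures and regular classes: integral points of one field are
dense in the whole representation space, which is irreducible. -/

open Matrix Filter Topology

namespace Vale.Agent.P002.Sphere

open Vale.Agent.P002.Surface (Mat Tup PF PMap)
open Vale.Agent.P002.Pair
open Vale.Agent.P002.Frames
open Vale.Agent.P002.Torus (Bad toM pf_ent exists_join join join_mem hand_join continuous_toM toM_mem)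

attribute [local instance] Matrix.linftyOpNormedAddCommGroup Matrix.linftyOpNormedSpace
  Matrix.linftyOpNormedRing Matrix.linftyOpNormedAlgebra

variable {n r m : ℕ}

lemma dimH_back {g s r : ℕ} (B : Set (Amb g s r)) : dimH (back g s r '' B) ≤ dimH B :=
  (back g s r).lipschitz.dimH_image_le B

/-- A polynomial nonzero somewhere on the representation space is nonzero outside the bad set. -/
lemma exists_good_point (hr : 3 ≤ r) {J : Fin (m + 1 + 2) → Mat r} (hJ : ∀ i, (J i).det = 1)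
    (hc : ∀ i, Frames.Cyclic (J i)) {x : MT 0 (m + 1 + 2) r} (hx : x ∈ HomM 0 J)
    {f : MvPolynomial (MC 0 (m + 1 + 2) r) ℂ} (hne : MvPolynomial.eval (ent x) f ≠ 0) :
    ∃ q ∈ Sol J, q ∉ Bad (g := 0) J ∧ MvPolynomial.eval (ent (toM J q)) f ≠ 0 := by
  have hr0 : 0 < r := by omega
  obtain ⟨q, hq, hqx⟩ := exists_join hx
  let E : Set (Tup 0 r × (Fin (m + 1 + 2) → Mat r)) := back 0 (m + 1 + 2) r '' Bad J
  set N := (m + 1 + 2 - 1) * (r ^ 2 - 1) with hN
  have hE : dimH E < ((2 * ((2 * 0 + (m + 1 + 2) - 1) * (r ^ 2 - 1)) : ℕ) : ENNReal) := by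
    have hNpos : 1 ≤ N := by
      have := Nat.one_lt_pow two_ne_zero (show 1 < r by omega)
      exact Nat.one_le_iff_ne_zero.2 (Nat.mul_ne_zero (by omega) (by omega))
    refine lt_of_le_of_lt ((dimH_back _).trans
      (dimH_bad hr hJ hc)) (Nat.cast_lt.2 ?_)
    rw [Nat.mul_zero, Nat.zero_add, ← hN]
    omega
  have hbd : PMap fun z : Tup 0 r × (Fin (m + 1 + 2) → Mat r) =>
      ((z.1, Global.bdC J z.2) : Tup 0 r × (Fin (m + 1 + 2) → Mat r)) :=
    PMap.fst.prodMk (PMap.pi fun i =>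
      (((PMap.proj i).comp PMap.snd).mul (PMap.const _)).mul
        ((PMap.proj i).comp PMap.snd).adjugate)
  have hlift : ((hand q, conjs q) : Tup 0 r × (Fin (m + 1 + 2) → Mat r)) ∈ Global.Lift J :=
    ⟨fun _ => ⟨hq.1 _, hq.1 _⟩, fun _ => hq.1 _, hq.2⟩
  obtain ⟨z, hzL, hzne, hzE⟩ := Global.exists_lift_off hr0 hJ hE
    (PF.comp (pf_ent f) hbd) hlift (by rw [← hqx] at hne; exact hne)
  refine ⟨join z.1 z.2, join_mem hzL.1 hzL.2.1 hzL.2.2,
    fun h => hzE ⟨_, h, Prod.ext (hand_join z.1 z.2) rfl⟩, ?_⟩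
  have : toM J (join z.1 z.2) = (z.1, Global.bdC J z.2) := Prod.ext (hand_join z.1 z.2) rfl
  rw [this]
  exact hzne

/-- One-field density and irreducibility for spheres with regular classes. -/
theorem whole_sphere {k : ℕ} (hk : 3 ≤ k) (hn : 3 ≤ n + 1) (J : Fin (k + 1) → Mat (n + 1))
    (hdet : ∀ i, (J i).det = 1)
    (hroot : ∀ i, ∀ x : ℂ, (J i).charpoly.IsRoot x → ∃ N > 0, x ^ N = 1)
    (hcyc : ∀ i, ∃ v : Fin (n + 1) → ℂ,
      Submodule.span ℂ (Set.range fun j : Fin (n + 1) => (J i ^ (j : ℕ)) *ᵥ v) = ⊤) :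
    ∃ L : IntermediateField ℚ ℂ, FiniteDimensional ℚ L ∧
      ((HomM 0 J).Nonempty → ∃ p ∈ HomM 0 J, algOf p = ⊤) ∧
      (∀ x ∈ HomM 0 J, ∀ f : MvPolynomial (MC 0 (k + 1) (n + 1)) ℂ,
        (∀ y ∈ HomM 0 J, algOf y = ⊤ → (∀ q, ent y q ∈ L ∧ IsIntegral ℤ (ent y q)) →
          MvPolynomial.eval (ent y) f = 0) → MvPolynomial.eval (ent x) f = 0) ∧
      ∀ f₁ f₂ : MvPolynomial (MC 0 (k + 1) (n + 1)) ℂ,
        (∀ x ∈ HomM 0 J, MvPolynomial.eval (ent x) (f₁ * f₂) = 0) →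
          (∀ x ∈ HomM 0 J, MvPolynomial.eval (ent x) f₁ = 0) ∨
            (∀ x ∈ HomM 0 J, MvPolynomial.eval (ent x) f₂ = 0) := by
  obtain ⟨m, rfl⟩ : ∃ m, k = m + 1 + 2 := ⟨k - 3, by omega⟩
  rcases (HomM 0 J).eq_empty_or_nonempty with hE | ⟨x₀, hx₀⟩
  · refine ⟨⊥, inferInstance, fun ⟨x, hx⟩ => ?_, fun x hx => ?_,
      fun f₁ f₂ _ => Or.inl fun x hx => ?_⟩ <;> simp [hE] at hx
  choose μ hgr hch hμN hprod hnd using fun i => eigen_data (hdet i) (hroot i)
  have h0 : ∀ i l, μ i l ≠ 0 := fun i l h => by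
    obtain ⟨N, hN, e⟩ := hμN i l
    rw [h, zero_pow hN.ne'] at e
    exact zero_ne_one e
  let lam : Fin (m + 1 + 2) → Fin n → ℂˣ := fun i l => Units.mk0 _ (h0 i.castSucc l.castSucc)
  let lamF : Fin n → ℂˣ := fun l => Units.mk0 _ (h0 (Fin.last (m + 1 + 2)) l.castSucc)
  have hC := fun i => cyclic_of_span (hcyc i)
  obtain ⟨q₁, hq₁, hb₁, -⟩ := exists_good_point (m := m + 1) hn hdet hC hx₀ (f := 1)
    (by simp)
  obtain ⟨K₁, p₁, -, hp₁, -, hs₁, -⟩ := exists_data_near (lam := lam) (lamF := lamF) hdet hC hgr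
    hch hprod (fun _ _ => rfl) (fun _ => rfl) hq₁ hb₁ univ_mem
  obtain ⟨L, hL, p, hp, hpA, U, hUo, hpU, hcl, hprime, hreach⟩ := main_core J (by omega) hdet hcyc
    μ hgr hch hμN hprod lam lamF (fun _ _ => rfl) (fun _ => rfl)
    fun a ha => ⟨p₁, hp₁, hs₁ a ha⟩
  have key : ∀ f : MvPolynomial (MC 0 (m + 1 + 2 + 1) (n + 1)) ℂ,
      (∀ x ∈ U ∩ HomM 0 J, MvPolynomial.eval (ent x) f = 0) →
      ∀ x ∈ HomM 0 J, MvPolynomial.eval (ent x) f = 0 := by
    intro f hf x hx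
    by_contra hne
    obtain ⟨q, hq, hb, hqne⟩ := exists_good_point (m := m + 1) hn hdet hC hx hne
    have hV : {y : MT 0 (m + 1 + 2 + 1) (n + 1) | MvPolynomial.eval (ent y) f ≠ 0} ∈
        𝓝 (toM J q) :=
      (PF.contDiff (pf_ent f)).continuous.continuousAt.eventually_ne hqne
    obtain ⟨K, p', hK, hp', hg', -, hKV⟩ := exists_data_near (lam := lam) (lamF := lamF) hdet hC
      hgr hch hprod (fun _ _ => rfl) (fun _ => rfl) hq hb hV
    exact hKV (orbit_vanish hp' hg' (hreach f hf) K hK)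
  exact ⟨L, hL, fun _ => ⟨p, hp, hpA⟩, fun x hx f hf => key f (fun y hy => hcl y hy f hf) x hx,
    fun f₁ f₂ h12 => (hprime f₁ f₂ fun x hx => h12 x hx.2).imp (key f₁) (key f₂)⟩

end Vale.Agent.P002.Sphere
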