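import Vale.Agent.P002.Torus.Perturb
import Vale.Agent.P002.Frames.Regular
import Vale.Agent.P002.Surface.Mirror

/-! Away from the bad set all slots but the first two conjugators move freely; nonvanishing of a
polynomial function is dense in `SL_r`. -/

open Matrix Module Filter Topology

namespace Vale.Agent.P002.Sphere

open Vale.Agent.P002.Surface (Mat PF PMap exists_curve)
open Vale.Agent.P002.Pair
open Vale.Agent.P002.Torus (sk0 sk1 Bad scalar_of_orth_good root_nhds relF_eq_one)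

attribute [local instance] Matrix.linftyOpNormedAddCommGroup Matrix.linftyOpNormedSpace
  Matrix.linftyOpNormedRing Matrix.linftyOpNormedAlgebra

variable {g r m : ℕ} {J : Fin (m + 2) → Mat r}

/-- Outside the bad set every slot other than the first two conjugators moves freely. -/
theorem free_slots (hr : 0 < r) (hJ : ∀ i, (J i).det = 1) {q : Amb g (m + 2) r} (hq : q ∈ Sol J)
    (hb : q ∉ Bad J) {W : Set (Amb g (m + 2) r)} (hW : W ∈ 𝓝 q) :
    ∀ᶠ y in 𝓝 q, (∀ t, (y t).det = 1) →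
      ∃ x ∈ W, x ∈ Sol J ∧ ∀ t, t ≠ sk0 → t ≠ sk1 → x t = y t := by
  classical
  have hr' : (r : ℂ) ≠ 0 := Nat.cast_ne_zero.2 hr.ne'
  let TS := {t : Idx g (m + 2) // t = sk0 ∨ t = sk1}
  let RS := {t : Idx g (m + 2) // ¬ (t = sk0 ∨ t = sk1)}
  let tlC : Mat r →L[ℂ] (tlm r).range := LinearMap.toContinuousLinearMap (tlm r).rangeRestrict
  let pr : Amb g (m + 2) r →L[ℂ] (RS → Mat r) := ContinuousLinearMap.pi fun t =>
    ContinuousLinearMap.proj (R := ℂ) (φ := fun _ : Idx g (m + 2) => Mat r) t.1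
  let rs : (Idx g (m + 2) → ℂ) →L[ℂ] (TS → ℂ) := ContinuousLinearMap.pi fun t =>
    ContinuousLinearMap.proj (R := ℂ) (φ := fun _ : Idx g (m + 2) => ℂ) t.1
  let G : Amb g (m + 2) r → (TS → ℂ) × (tlm r).range × (RS → Mat r) :=
    fun x => (rs (dets x), tlC (relF J x), pr x)
  set F' := fderiv ℂ (relF J) q with hF'
  have hG : HasStrictFDerivAt G ((rs.comp (detsD q)).prod ((tlC.comp F').prod pr)) q :=
    (rs.hasStrictFDerivAt.comp q (hasStrictFDerivAt_dets hq.1)).prodMk
      ((tlC.hasStrictFDerivAt.comp q (hasFDerivAt_relF J q)).prodMk pr.hasStrictFDerivAt)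
  set A := (rs.comp (detsD q)).prod ((tlC.comp F').prod pr)
  have hsurj : A.range = ⊤ := by
    refine LinearMap.range_eq_top.2 fun y => ?_
    obtain ⟨d, ⟨M, M0, hM⟩, Y⟩ := y
    let w0 : Amb g (m + 2) r := fun t =>
      if h : t = sk0 ∨ t = sk1 then (d ⟨t, h⟩ / r) • q t else Y ⟨t, h⟩
    let C : Submodule ℂ (Amb g (m + 2) r) := Submodule.pi Set.univ fun t =>
      if t = sk0 ∨ t = sk1 then tanS (q t) else ⊥
    obtain ⟨y, hy, c, hc⟩ := exists_add_smul_one hr (I := C.map F'.toLinearMap) (fun x hx => by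
      refine scalar_of_orth_good hJ hq hb fun l hl Y hY => hx _ ⟨_, ?_, rfl⟩
      refine single_mem_pi ?_
      show _ ∈ if (Sum.inr l : Idx g (m + 2)) = sk0 ∨ Sum.inr l = sk1 then _ else _
      rw [if_pos (by simpa using hl)]
      exact mul_mem_tanS (hq.1 _) hY) (M0 - F' w0)
    obtain ⟨w1, hw1, rfl⟩ := hy
    have hin : ∀ t : TS, detD (q t.1) (w1 t.1) = 0 := fun t => by
      have h : w1 t.1 ∈ if t.1 = sk0 ∨ t.1 = sk1 then tanS (q t.1) else ⊥ := hw1 t.1 trivial
      rw [if_pos t.2] at h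
      exact h
    have hout : ∀ t : RS, w1 t.1 = 0 := fun t => by
      have h : w1 t.1 ∈ if t.1 = sk0 ∨ t.1 = sk1 then tanS (q t.1) else ⊥ := hw1 t.1 trivial
      rw [if_neg t.2, Submodule.mem_bot] at h
      exact h
    refine ⟨w0 + w1, Prod.ext (funext fun t => ?_) (Prod.ext (Subtype.ext ?_) (funext fun t => ?_))⟩
    · show detD (q t.1) (w0 t.1 + w1 t.1) = d t
      rw [map_add, hin, add_zero]
      simp only [w0, dif_pos t.2]
      rw [map_smul, detD_self (hq.1 _), smul_eq_mul, div_mul_cancel₀ _ hr']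
    · show tlm r (F' (w0 + w1)) = M
      have : F' w1 = M0 - F' w0 - c • 1 := eq_sub_of_add_eq hc.symm
      rw [map_add, this, map_add, map_sub, map_sub, map_smul, tlm_one hr, smul_zero, hM]
      abel
    · show w0 t.1 + w1 t.1 = Y t
      rw [hout, add_zero]
      simp only [w0, dif_neg t.2]
      rfl
  have himg : G '' {x | x ∈ W ∧ (((r : ℂ)⁻¹ * (relF J x).trace) ^ r = 1 →
      (r : ℂ)⁻¹ * (relF J x).trace = 1)} ∈ 𝓝 (G q) :=
    hG.map_nhds_eq_of_surj hsurj ▸ image_mem_map (Filter.Eventually.and hW (root_nhds hr hq))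
  have hcont : Continuous fun y : Amb g (m + 2) r => (rs (dets q), tlC (1 : Mat r), pr y) := by
    fun_prop
  have hGq : G q = (rs (dets q), tlC (1 : Mat r), pr q) := by simp only [G, hq.2]
  filter_upwards [hcont.continuousAt.preimage_mem_nhds (x := q) (hGq ▸ himg)] with y hy hyd
  obtain ⟨x, ⟨hxW, hxr⟩, hGx⟩ := hy
  simp only [G, Prod.mk.injEq] at hGx
  obtain ⟨hxd, hxt, hxp⟩ := hGx
  have hrest : ∀ t, t ≠ sk0 → t ≠ sk1 → x t = y t := fun t h0 h1 =>
    congrFun hxp (⟨t, not_or.2 ⟨h0, h1⟩⟩ : RS)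
  have hdet : ∀ t, (x t).det = 1 := fun t => by
    by_cases ht : t = sk0 ∨ t = sk1
    · exact (congrFun hxd (⟨t, ht⟩ : TS)).trans (hq.1 t)
    · rw [hrest t (not_or.1 ht).1 (not_or.1 ht).2]; exact hyd t
  exact ⟨x, hxW, ⟨hdet, relF_eq_one hr hJ hdet (congrArg Subtype.val hxt) hxr⟩, hrest⟩

/-- A polynomial function nonzero somewhere on `SL_r` is nonzero near every point of it. -/
lemma exists_near_ne {F : Mat r → ℂ} (hF : F ∈ PF (Mat r)) {A₀ B : Mat r} (hA : A₀.det = 1)
    (hA0 : F A₀ ≠ 0) (hB : B.det = 1) {W : Set (Mat r)} (hW : W ∈ 𝓝 B) :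
    ∃ A ∈ W, A.det = 1 ∧ F A ≠ 0 := by
  obtain ⟨c, hc, hcd, hc0, hc1⟩ := exists_curve hB hA
  by_contra! h
  have hev : ∀ᶠ z in 𝓝 (0 : ℂ), F (c z) = 0 := by
    filter_upwards [hc.continuous.continuousAt.preimage_mem_nhds (x := (0 : ℂ)) (hc0.symm ▸ hW)]
      with z hz using h _ hz (hcd z)
  have hd : Differentiable ℂ fun z => F (c z) :=
    ((PF.contDiff hF).comp hc).differentiable one_ne_zero
  refine hA0 ?_
  rw [← hc1]
  exact (show AnalyticOnNhd ℂ (fun z => F (c z)) Set.univ from fun w _ => hd.analyticAt w)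
    |>.eqOn_zero_of_preconnected_of_eventuallyEq_zero isPreconnected_univ
      (Set.mem_univ (0 : ℂ)) hev (Set.mem_univ (1 : ℂ))

/-- The Krylov determinant of the first basis vector under a conjugate. -/
noncomputable def kryDet [NeZero r] (A h : Mat r) : ℂ :=
  (Matrix.of fun i j : Fin r =>
    ((h * A * h.adjugate) ^ (j : ℕ) *ᵥ Pi.single (0 : Fin r) 1) i).det

lemma pf_kryDet [NeZero r] (A : Mat r) : (fun h => kryDet A h) ∈ PF (Mat r) := by
  refine PMap.det' fun i j => ?_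
  have hM : PMap fun h : Mat r => (h * A * h.adjugate) ^ (j : ℕ) :=
    ((PMap.id'.mul (PMap.const A)).mul PMap.id'.adjugate).mpow (j : ℕ)
  have e : (fun h : Mat r => (Matrix.of fun i j : Fin r =>
      ((h * A * h.adjugate) ^ (j : ℕ) *ᵥ Pi.single (0 : Fin r) 1) i) i j) =
      fun h => ((h * A * h.adjugate) ^ (j : ℕ)) i 0 := by
    funext h; simp [Matrix.mulVec_single]
  rw [e]
  exact hM.entry i 0

/-- Some conjugate of a cyclic matrix has the first basis vector as cyclic vector. -/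
lemma exists_kryDet_ne [NeZero r] {A : Mat r} (hA : Frames.Cyclic A) :
    ∃ h : Mat r, h.det = 1 ∧ kryDet A h ≠ 0 := by
  obtain ⟨v, hv⟩ := hA
  set K := Matrix.of fun i j : Fin r => (A ^ (j : ℕ) *ᵥ v) i with hK
  obtain ⟨c, hc⟩ := IsAlgClosed.exists_pow_nat_eq (K.det)⁻¹ (Nat.pos_of_ne_zero (NeZero.ne r))
  set S := c • K with hS
  have hSd : S.det = 1 := by
    rw [det_smul, Fintype.card_fin, hc, inv_mul_cancel₀ hv]
  refine ⟨S.adjugate, by rw [det_adjugate, hSd, one_pow], ?_⟩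
  have he : S *ᵥ Pi.single (0 : Fin r) 1 = c • v := by
    funext i; simp [S, K, Matrix.mulVec_single]
  have hadj : S.adjugate.adjugate = S := adj_adj hSd
  have hpow : ∀ j : ℕ, (S.adjugate * A * S) ^ j *ᵥ Pi.single (0 : Fin r) 1 =
      S.adjugate *ᵥ (A ^ j *ᵥ (c • v)) := by
    intro j
    induction j with
    | zero =>
      rw [pow_zero, one_mulVec, pow_zero, one_mulVec, ← he, mulVec_mulVec, Surface.adj_mul hSd,
        one_mulVec]
    | succ j ih =>
      rw [pow_succ', ← mulVec_mulVec, ih, pow_succ', mulVec_mulVec, mulVec_mulVec, mulVec_mulVec,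
        mul_assoc _ S, Surface.mul_adj hSd, mul_one, mul_assoc]
  have e : (Matrix.of fun i j : Fin r =>
      ((S.adjugate * A * S.adjugate.adjugate) ^ (j : ℕ) *ᵥ Pi.single (0 : Fin r) 1) i) =
      S.adjugate * S := by
    ext i j
    rw [hadj, Matrix.of_apply, hpow]
    show ∑ x, S.adjugate i x * (A ^ (j : ℕ) *ᵥ (c • v)) x = _
    rw [Matrix.mul_apply]
    refine Finset.sum_congr rfl fun x _ => ?_
    rw [mulVec_smul]
    simp [S, K]
  rw [kryDet, e, Surface.adj_mul hSd, det_one]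
  exact one_ne_zero

end Vale.Agent.P002.Sphere
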