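import Vale.Agent.P002.Sphere.Flag
import Vale.Agent.P002.Sphere.Open
import Vale.Agent.P002.Sphere.Close
import Vale.Agent.P002.Frames.Assembly
import Vale.Agent.P002.Torus.Main

/-! Near every sphere representation outside the bad set there are, up to conjugation,
parametrised ones. -/

open Matrix Filter Topology

namespace Vale.Agent.P002.Sphere

open Vale.Agent.P002.Surface (Mat PF adj_mul mul_adj)
open Vale.Agent.P002.Pair
open Vale.Agent.P002.Frames
open Vale.Agent.P002.Torus (Bad toM sk0 sk1)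

attribute [local instance] Matrix.linftyOpNormedAddCommGroup Matrix.linftyOpNormedSpace
  Matrix.linftyOpNormedRing Matrix.linftyOpNormedAlgebra

variable {n m : ℕ}

/-- Conjugate every boundary matrix of a tuple. -/
def conjT {s r : ℕ} (K : Mat r) (y : MT 0 s r) : MT 0 s r :=
  (fun i => i.elim0, fun i => K * y.2 i * K.adjugate)

/-- The upper bidiagonal matrix with ones above the diagonal. -/
def bidiag (μ : Fin (n + 1) → ℂ) : Mat (n + 1) :=
  Matrix.of fun i j => if i = j then μ i else if (j : ℕ) = (i : ℕ) + 1 then 1 else 0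

/-- A regular class contains a triangular element. -/
lemma exists_bidiag {A : SL (n + 1) ℂ} (hA : Frames.Cyclic A.1) {μ : Fin (n + 1) → ℂ}
    (hg : Grouped μ) (hprod : ∏ i, μ i = 1)
    (hch : A.1.charpoly = ∏ l, (Polynomial.X - Polynomial.C (μ l))) :
    ∃ T S : SL (n + 1) ℂ, A = S * T * S⁻¹ ∧ Up T ∧ (∀ i, T.1 i i = μ i) ∧
      (∀ a : Fin n, T.1 a.castSucc a.succ = 1) ∧ Frames.Cyclic T.1 := by
  have hu : ∀ i j, j < i → bidiag μ i j = 0 := fun i j h => by
    simp [bidiag, h.ne', show ¬ ((j : ℕ) = (i : ℕ) + 1) from fun e => by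
      rw [Fin.lt_def] at h; omega]
  have hd : (bidiag μ).det = 1 := by
    rw [det_of_isUpperTriangular (fun a b h => hu a b h), ← hprod]
    simp [bidiag]
  obtain ⟨T, hT⟩ : ∃ T : SL (n + 1) ℂ, T.1 = bidiag μ := ⟨⟨_, hd⟩, rfl⟩
  have hTu : Up T := fun i j h => by rw [hT]; exact hu i j h
  have hdia : ∀ i, T.1 i i = μ i := fun i => by simp [hT, bidiag]
  have hsup : ∀ a : Fin n, T.1 a.castSucc a.succ = 1 := fun a => by
    simp [hT, bidiag, Fin.castSucc_lt_succ.ne]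
  have hTc : Frames.Cyclic T.1 := cyclic_of_triangular hTu (by simpa only [hdia] using hg)
    fun a _ => by rw [hsup]; exact one_ne_zero
  obtain ⟨S, hS⟩ := conj_sl hA hTc (hch.trans (upper_charpoly hTu hdia).symm)
  exact ⟨T, S, hS, hTu, hdia, hsup, hTc⟩

/-- A regular class contains chart elements. -/
lemma exists_chart_witness {k : ℕ} (hk : 2 ≤ k) (lam : Fin k → Fin n → ℂˣ)
    (lamF : Fin n → ℂˣ) (μ : Fin k → Fin (n + 1) → ℂ) (hgr : ∀ i, Grouped (μ i))
    (hprod : ∀ i, ∏ l, μ i l = 1) (hlam : ∀ i l, (lam i l : ℂ) = μ i l.castSucc)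
    {A : Fin k → SL (n + 1) ℂ} (hA : ∀ i, Frames.Cyclic (A i).1)
    (hch : ∀ i, (A i).1.charpoly = ∏ l, (Polynomial.X - Polynomial.C (μ i l))) :
    ∃ (x₀ : Fin k → XP n ℂ) (S : Fin k → SL (n + 1) ℂ),
      ∀ i, A i = S i * (diOf (lam i) * (bOf (x₀ i))⁻¹) * (S i)⁻¹ := by
  choose p hp hs using fun i => Par.exists_good_super_X (g := 0) (show 2 ≤ 0 + k by omega) lam lamF i
  choose κ hκ using fun i => conj_sl (hA i) (tElt_class (hprod i) (hgr i) (lam i) (hlam i)
    ((p i).X i) (hs i)).1 ((hch i).trans (tElt_class (hprod i) (hgr i) (lam i) (hlam i)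
      ((p i).X i) (hs i)).2.symm)
  refine ⟨fun i => (p i).X i, fun i => κ i * (Vmat n ((p i).X i))⁻¹, fun i => ?_⟩
  rw [hκ i, tElt]
  group

/-- Chart elements conjugate to one element in a dense open set of ways. -/
lemma exists_punct_open (lam : Fin n → ℂˣ) (x₀ : XP n ℂ) (A S : SL (n + 1) ℂ)
    (hA : A = S * (diOf lam * (bOf x₀)⁻¹) * S⁻¹) :
    ∃ Ω : Set (SL (n + 1) ℂ), IsOpen Ω ∧ Dense Ω ∧
      ∀ h ∈ Ω, ∃ q x, Up q ∧ h * A * h⁻¹ = q * tElt lam x * q⁻¹ := by
  obtain ⟨Ω, hΩo, hΩd, hΩ⟩ := exists_chain_open (m := 0) (fun _ => lam) (fun _ => x₀) Up.one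
    (fun _ => (fun _ => 1, fun _ _ => 1)) (fun _ => A) (fun _ => S) (fun _ => hA)
  refine ⟨{h | (fun _ => h) ∈ Ω}, hΩo.preimage (continuous_pi fun _ => continuous_id),
    dense_iff_inter_open.2 fun V hV ⟨v, hv⟩ => ?_, fun h hh => ?_⟩
  · obtain ⟨u, hu, huΩ⟩ := dense_iff_inter_open.1 hΩd _ (hV.preimage (continuous_apply 0))
      ⟨fun _ => v, hv⟩
    have e : (fun _ => u 0) = u := funext fun i => congrArg u (Fin.eq_zero i).symm
    exact ⟨u 0, hu, by show (fun _ => u 0) ∈ Ω; rw [e]; exact huΩ⟩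
  · obtain ⟨q0, x, J, hq, he⟩ := hΩ _ hh
    exact ⟨q0, x 0, hq, (he 0).trans (elt_punct _ _ _ _ _)⟩

variable {J : Fin (m + 1 + 2 + 1) → Mat (n + 1)}

lemma hand_prod {s r : ℕ} (q : Amb 0 s r) : Surface.rel (hand q) = 1 := by
  simp [Surface.rel]

/-- Near a good sphere representation there are conjugates of parametrised ones. -/
theorem exists_data_near (hdet : ∀ i, (J i).det = 1) (hc : ∀ i, Frames.Cyclic (J i))
    {μ : Fin (m + 1 + 2 + 1) → Fin (n + 1) → ℂ} (hgr : ∀ i, Grouped (μ i))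
    (hch : ∀ i, (J i).charpoly = ∏ l, (Polynomial.X - Polynomial.C (μ i l)))
    (hprod : ∀ i, ∏ l, μ i l = 1) {lam : Fin (m + 1 + 2) → Fin n → ℂˣ} {lamF : Fin n → ℂˣ}
    (hlam : ∀ i l, (lam i l : ℂ) = μ i.castSucc l.castSucc)
    (hlamF : ∀ l, (lamF l : ℂ) = μ (Fin.last (m + 1 + 2)) l.castSucc)
    {q : Amb 0 (m + 1 + 2 + 1) (n + 1)} (hq : q ∈ Sol J)
    (hb : q ∉ Bad (g := 0) (m := m + 1 + 1) J)
    {V : Set (MT 0 (m + 1 + 2 + 1) (n + 1))} (hV : V ∈ 𝓝 (toM J q)) :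
    ∃ (K : Mat (n + 1)) (p : Par n 0 (m + 1 + 2) ℂ), K.det = 1 ∧ p.Good lam lamF ∧ p.gau = 1 ∧
      (∀ a : Fin n, μ (Fin.last _) a.castSucc = μ (Fin.last _) a.succ →
        (p.R lam).1 a.castSucc a.succ ≠ 0) ∧
      conjT K (toMat (p.outs lam)) ∈ V := by
  classical
  let iC : Fin (m + 1 + 1) → Fin (m + 1 + 2) := Fin.castSucc
  let iL : Fin (m + 1 + 2) := Fin.last (m + 1 + 1)
  let A : Fin (m + 1 + 2) → SL (n + 1) ℂ := fun i => toSL (J i.castSucc) (hdet _)
  obtain ⟨x₀, S, hS⟩ := exists_chart_witness (by omega) lam lamF (fun i => μ i.castSucc)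
    (fun i => hgr _) (fun i => hprod _) hlam (A := A) (fun i => hc _) (fun i => hch _)
  obtain ⟨Ω, hΩo, hΩd, hΩ⟩ := exists_chain_open (fun i => lam (iC i)) (fun i => x₀ (iC i)) Up.one
    (fun _ => (fun _ => 1, fun _ _ => 1)) (fun i => A (iC i)) (fun i => S (iC i))
    (fun i => hS _)
  obtain ⟨Ω₁, hΩ₁o, hΩ₁d, hΩ₁⟩ := exists_punct_open (lam iL) (x₀ iL) (A iL) (S iL) (hS iL)
  obtain ⟨TF, SF, hTF, hTu, hTd, hTs, hTc⟩ := exists_bidiag (A := toSL (J (Fin.last _)) (hdet _))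
    (hc _) (hgr _) (hprod _) (hch _)
  obtain ⟨O₁, hO₁o, hO₁⟩ : ∃ O, IsOpen O ∧ (fun h : SL (n + 1) ℂ => h.1) ⁻¹' O = Ω₁ :=
    (⟨rfl⟩ : IsInducing fun h : SL (n + 1) ℂ => h.1).isOpen_iff.1 hΩ₁o
  -- the frame of the last flag
  let sL : Idx 0 (m + 1 + 2 + 1) := Sum.inr iL.castSucc
  let K₀ : SL (n + 1) ℂ := toSL (q (Sum.inr (Fin.last _))) (hq.1 _) * SF
  let h₀ : SL (n + 1) ℂ := K₀⁻¹ * toSL (q sL) (hq.1 _)
  obtain ⟨V₀, hV₀V, hV₀o, hqV₀⟩ := mem_nhds_iff.1 hV
  have hW₀ : toM J ⁻¹' V₀ ∈ 𝓝 q :=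
    (Torus.continuous_toM J).continuousAt.preimage_mem_nhds (hV₀o.mem_nhds hqV₀)
  let upd : SL (n + 1) ℂ → Amb 0 (m + 1 + 2 + 1) (n + 1) := fun h =>
    Function.update q sL (K₀ * h).1
  have hupd0 : upd h₀ = q := by
    simp only [upd, h₀, mul_inv_cancel_left]
    exact Function.update_eq_self sL q
  have hupdc : Continuous upd :=
    (continuous_const (y := q)).update sL (continuous_val.comp (continuous_const.mul continuous_id))
  have hfree := free_slots (m := m + 1 + 1) (Nat.succ_pos n) hdet hq hb hW₀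
  rw [← hupd0] at hfree
  obtain ⟨N, hN, hNo, h₀N⟩ := eventually_nhds_iff.1 (hupdc.continuousAt.eventually hfree)
  obtain ⟨h₁, hh₁N, hh₁⟩ := dense_iff_inter_open.1 hΩ₁d N hNo ⟨h₀, h₀N⟩
  obtain ⟨O, hOo, hO⟩ := (⟨rfl⟩ : IsInducing fun h : SL (n + 1) ℂ => h.1).isOpen_iff.1
    (hNo.inter hΩ₁o)
  obtain ⟨AL, hAL, hALd, hALne⟩ : ∃ M ∈ O, M.det = 1 ∧ kryDet (J iL.castSucc) M ≠ 0 := by
    obtain ⟨M₁, hM₁, hM₁ne⟩ := exists_kryDet_ne (hc iL.castSucc)
    refine exists_near_ne (pf_kryDet _) hM₁ hM₁ne h₁.2 (hOo.mem_nhds ?_)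
    show h₁ ∈ (fun h : SL (n + 1) ℂ => h.1) ⁻¹' O
    rw [hO]; exact ⟨hh₁N, hh₁⟩
  obtain ⟨h', hh'⟩ : ∃ h' : SL (n + 1) ℂ, h'.1 = AL := ⟨toSL AL hALd, rfl⟩
  obtain ⟨hh'N, hh'Ω⟩ : h' ∈ N ∩ Ω₁ := by
    rw [← hO]; show h'.1 ∈ O; rw [hh']; exact hAL
  obtain ⟨x, hxV, hx, hxs⟩ := hN h' hh'N fun t => by
    by_cases ht : t = sL
    · subst ht; simp only [upd, Function.update_self]; exact (K₀ * h').2
    · simp only [upd, Function.update_of_ne ht]; exact hq.1 t
  -- the slots of the new point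
  let kx : Fin (m + 1 + 2 + 1) → SL (n + 1) ℂ := fun i => toSL (x (Sum.inr i)) (hx.1 _)
  have hne : ∀ {i : Fin (m + 1 + 2 + 1)}, 2 ≤ (i : ℕ) →
      x (Sum.inr i) = upd h' (Sum.inr i) := fun {i} hi => by
    refine hxs _ (fun e => ?_) (fun e => ?_)
    · rw [Sum.inr_injective e] at hi
      simp at hi
    · rw [Sum.inr_injective e] at hi
      simp at hi
  have hkF : kx (Fin.last _) * SF = K₀ := by
    have e : x (Sum.inr (Fin.last (m + 1 + 2))) = q (Sum.inr (Fin.last _)) := by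
      rw [hne (by simp)]
      exact Function.update_of_ne (by simp [sL, iL, Fin.ext_iff]) _ _
    simp only [kx, K₀]
    congr 1
    exact Subtype.ext e
  have hkL : kx iL.castSucc = K₀ * h' := Subtype.ext (by
    show x (Sum.inr iL.castSucc) = _
    rw [hne (by simp [iL])]
    exact Function.update_self sL _ q)
  let u₀ : Fin (m + 1 + 1) → SL (n + 1) ℂ := fun i => K₀⁻¹ * kx (iC i).castSucc
  let P : (Fin (m + 1 + 1) → SL (n + 1) ℂ) → SL (n + 1) ℂ := fun u =>
    (List.ofFn fun i => u i * A (iC i) * (u i)⁻¹).prod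
  -- the relation in this frame
  let AS : Fin (m + 1 + 2 + 1) → SL (n + 1) ℂ := fun i => toSL (J i) (hdet i)
  have hrel : (List.ofFn fun i => kx i * AS i * (kx i)⁻¹).prod = 1 := by
    refine Subtype.ext ?_
    rw [list_val, List.map_ofFn, one_val]
    have h2 : relF J x = 1 := hx.2
    rw [relF, hand_prod, one_mul] at h2
    refine Eq.trans ?_ h2
    congr 1
  have hM0 : P u₀ * (h' * A iL * h'⁻¹) * TF = 1 := by
    have e1 : (fun i => kx i * AS i * (kx i)⁻¹) = Fin.snoc (α := fun _ => SL (n + 1) ℂ)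
        (Fin.snoc (α := fun _ => SL (n + 1) ℂ)
          (fun i => K₀ * (u₀ i * A (iC i) * (u₀ i)⁻¹) * K₀⁻¹)
          (K₀ * (h' * A iL * h'⁻¹) * K₀⁻¹)) (K₀ * TF * K₀⁻¹) := by
      funext i
      refine Fin.lastCases ?_ (fun i => ?_) i
      · rw [Fin.snoc_last, ← hkF, show AS (Fin.last _) = SF * TF * SF⁻¹ from hTF]
        group
      · rw [Fin.snoc_castSucc]
        refine Fin.lastCases ?_ (fun i => ?_) i
        · rw [Fin.snoc_last, show kx (Fin.last (m + 1 + 1)).castSucc = K₀ * h' from hkL]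
          show K₀ * h' * A iL * (K₀ * h')⁻¹ = _
          group
        · rw [Fin.snoc_castSucc]
          show kx (iC i).castSucc * A (iC i) * (kx (iC i).castSucc)⁻¹ = _
          simp only [u₀]
          group
    rw [e1, ofFn_snoc_prod, ofFn_snoc_prod] at hrel
    have hconj : ∀ (l : List (SL (n + 1) ℂ)),
        (l.map fun y => K₀ * y * K₀⁻¹).prod = K₀ * l.prod * K₀⁻¹ := fun l => by
      induction l with
      | nil => simp
      | cons a l ih => simp only [List.map_cons, List.prod_cons, ih]; group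
    have e2 : (List.ofFn fun i => K₀ * (u₀ i * A (iC i) * (u₀ i)⁻¹) * K₀⁻¹).prod =
        K₀ * P u₀ * K₀⁻¹ := by
      rw [← hconj, List.map_ofFn]
      rfl
    rw [e2] at hrel
    calc P u₀ * (h' * A iL * h'⁻¹) * TF = K₀⁻¹ * (K₀ * P u₀ * K₀⁻¹ *
          (K₀ * (h' * A iL * h'⁻¹) * K₀⁻¹) * (K₀ * TF * K₀⁻¹)) * K₀ := by group
      _ = 1 := by rw [hrel]; group
  -- the tuple as a function of the free data
  let Φ : (Fin (m + 1 + 1) → SL (n + 1) ℂ) × Mat (n + 1) × Mat (n + 1) →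
      MT 0 (m + 1 + 2 + 1) (n + 1) := fun w =>
    conjT K₀.1 ((fun i => i.elim0), Fin.snoc (α := fun _ => Mat (n + 1))
      (Fin.snoc (α := fun _ => Mat (n + 1))
        (fun i => (w.1 i).1 * J (iC i).castSucc * (w.1 i).1.adjugate)
        (w.2.2.adjugate * w.2.1 * J iL.castSucc * (w.2.2.adjugate * w.2.1).adjugate))
      (w.2.2.adjugate * TF.1 * w.2.2))
  have hΦc : Continuous Φ := by
    have hh : Continuous fun w : (Fin (m + 1 + 1) → SL (n + 1) ℂ) × Mat (n + 1) × Mat (n + 1) =>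
        w.2.2.adjugate * w.2.1 :=
      (continuous_snd.comp continuous_snd).matrix_adjugate.matrix_mul
        (continuous_fst.comp continuous_snd)
    refine (continuous_pi fun i => i.elim0).prodMk (continuous_pi fun i => ?_)
    refine (continuous_const.matrix_mul ?_).matrix_mul continuous_const
    refine Fin.lastCases ?_ (fun i => ?_) i
    · simp only [Fin.snoc_last]
      exact ((continuous_snd.comp continuous_snd).matrix_adjugate.matrix_mul
        continuous_const).matrix_mul (continuous_snd.comp continuous_snd)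
    · simp only [Fin.snoc_castSucc]
      refine Fin.lastCases ?_ (fun i => ?_) i
      · simp only [Fin.snoc_last]
        exact (hh.matrix_mul continuous_const).matrix_mul hh.matrix_adjugate
      · simp only [Fin.snoc_castSucc]
        have hu : Continuous fun w : (Fin (m + 1 + 1) → SL (n + 1) ℂ) × Mat (n + 1) × Mat (n + 1) =>
            (w.1 i).1 := continuous_val.comp ((continuous_apply i).comp continuous_fst)
        exact (hu.matrix_mul continuous_const).matrix_mul hu.matrix_adjugate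
  have hΦ0 : Φ (u₀, h'.1, 1) = toM J x := by
    refine Prod.ext (funext fun i => i.elim0) (funext fun i => ?_)
    show K₀.1 * _ * K₀.1.adjugate = x (Sum.inr i) * J i * (x (Sum.inr i)).adjugate
    refine Fin.lastCases ?_ (fun i => ?_) i
    · simp only [Fin.snoc_last, adjugate_one, one_mul, mul_one]
      have h := congrArg Subtype.val (show kx (Fin.last _) * AS (Fin.last _) * (kx (Fin.last _))⁻¹ =
        K₀ * TF * K₀⁻¹ by rw [← hkF, show AS (Fin.last _) = SF * TF * SF⁻¹ from hTF]; group)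
      exact h.symm
    · simp only [Fin.snoc_castSucc, adjugate_one, one_mul]
      refine Fin.lastCases ?_ (fun i => ?_) i
      · simp only [Fin.snoc_last]
        have h := congrArg Subtype.val (show kx iL.castSucc * AS iL.castSucc * (kx iL.castSucc)⁻¹ =
          K₀ * (h' * A iL * h'⁻¹) * K₀⁻¹ by rw [hkL]; show _ * A iL * _ = _; group)
        exact h.symm
      · simp only [Fin.snoc_castSucc]
        have h := congrArg Subtype.val (show kx (iC i).castSucc * AS (iC i).castSucc *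
          (kx (iC i).castSucc)⁻¹ = K₀ * (u₀ i * A (iC i) * (u₀ i)⁻¹) * K₀⁻¹ by
            show _ * A (iC i) * _ = _
            simp only [u₀]; group)
        exact h.symm
  have hgood : {w : (Fin (m + 1 + 1) → SL (n + 1) ℂ) × Mat (n + 1) × Mat (n + 1) |
      Φ w ∈ V₀ ∧ w.2.2.adjugate * w.2.1 ∈ O₁} ∈ 𝓝 (u₀, h'.1, (1 : Mat (n + 1))) := by
    have hh : Continuous fun w : (Fin (m + 1 + 1) → SL (n + 1) ℂ) × Mat (n + 1) × Mat (n + 1) =>
        w.2.2.adjugate * w.2.1 :=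
      (continuous_snd.comp continuous_snd).matrix_adjugate.matrix_mul
        (continuous_fst.comp continuous_snd)
    refine ((hV₀o.preimage hΦc).inter (hO₁o.preimage hh)).mem_nhds ⟨?_, ?_⟩
    · show Φ _ ∈ V₀
      rw [hΦ0]; exact hxV
    · show (1 : Mat (n + 1)).adjugate * h'.1 ∈ O₁
      rw [adjugate_one, one_mul]
      show h' ∈ (fun h : SL (n + 1) ℂ => h.1) ⁻¹' O₁
      rw [hO₁]; exact hh'Ω
  obtain ⟨Au, hAu, W, hW, hAW⟩ := mem_nhds_prod_iff.1 hgood
  have hflag := flag_open (J := J iL.castSucc) (T := TF.1) (M₀ := (P u₀).1) (hdet _) TF.2 (P u₀).2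
    h'.2 (fun i j h => hTu i j h) hTc (by
      have h := congrArg Subtype.val hM0
      exact h) (by rw [hh']; exact hALne) hW
  have hPc : Continuous fun u => (P u).1 := by
    have hl : Continuous fun u : Fin (m + 1 + 1) → SL (n + 1) ℂ =>
        ((List.finRange (m + 1 + 1)).map fun i => u i * A (iC i) * (u i)⁻¹).prod :=
      continuous_list_prod _ fun i _ =>
        ((continuous_apply i).mul continuous_const).mul (continuous_apply i).inv
    simp only [P, List.ofFn_eq_map]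
    exact continuous_val.comp hl
  obtain ⟨D, hDsub, hDo, hu₀D⟩ := mem_nhds_iff.1
    (inter_mem hAu (hPc.continuousAt.preimage_mem_nhds (x := u₀) hflag))
  obtain ⟨u, huD, huΩ⟩ := dense_iff_inter_open.1 hΩd D hDo ⟨u₀, hu₀D⟩
  obtain ⟨huA, huP⟩ := hDsub huD
  obtain ⟨h, b, hhb, hhd, hbd, hbu, hbeq⟩ := huP (P u).2
  obtain ⟨hsub, hO₁m⟩ := hAW (show (u, h, b) ∈ Au ×ˢ W from ⟨huA, hhb⟩)
  obtain ⟨hs, rfl⟩ : ∃ hs : SL (n + 1) ℂ, hs.1 = h := ⟨toSL h hhd, rfl⟩
  obtain ⟨bs, rfl⟩ : ∃ bs : SL (n + 1) ℂ, bs.1 = b := ⟨toSL b hbd, rfl⟩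
  have hbsu : Up bs := fun i j hij => hbu i j hij
  have heq : bs * P u * bs⁻¹ * (hs * A iL * hs⁻¹) * TF = 1 := Subtype.ext hbeq
  have hmem : bs⁻¹ * hs ∈ Ω₁ := by
    rw [← hO₁]
    exact hO₁m
  obtain ⟨qq, xx, hqq, hqe⟩ := hΩ₁ _ hmem
  set cF := bs⁻¹ * TF * bs with hcF
  have hcFu : Up cF := (hbsu.inv.mul hTu).mul hbsu
  have hcFd : ∀ i, dg cF i = μ (Fin.last _) i := fun i => by
    rw [hcF, dg_mul (hbsu.inv.mul hTu) hbsu, dg_mul hbsu.inv hTu, mul_comm (dg bs⁻¹ i),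
      mul_assoc, mul_comm (dg bs⁻¹ i), dg_inv_mul hbsu, mul_one]
    exact hTd i
  let c : Fin (m + 1 + 2) → SL (n + 1) ℂ := Fin.snoc (α := fun _ => SL (n + 1) ℂ)
    (fun i => u i * A (iC i) * (u i)⁻¹) (bs⁻¹ * hs * A iL * (bs⁻¹ * hs)⁻¹)
  obtain ⟨p, hp, hgau, hout⟩ := exists_par (m := m + 1) (lam := lam) (lamF := lamF) (c := c)
    (cF := cF) (R := cF⁻¹)
    (by
      simp only [c, Fin.snoc_castSucc]
      exact hΩ u huΩ)
    ⟨qq, xx, hqq, by simp only [c, Fin.snoc_last]; exact hqe⟩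
    hcFu.inv (inv_inv _).symm
    (fun i => by
      rw [hlamF, ← hcFd, mul_comm]
      exact dg_inv_mul hcFu _)
    (by
      rw [ofFn_snoc_prod]
      show P u * _ * cF = 1
      calc P u * (bs⁻¹ * hs * A iL * (bs⁻¹ * hs)⁻¹) * cF
          = bs⁻¹ * (bs * P u * bs⁻¹ * (hs * A iL * hs⁻¹) * TF) * bs := by rw [hcF]; group
        _ = 1 := by rw [heq]; group)
  have hR : p.R lam = cF⁻¹ := by
    have h := congrArg (fun X => X.2.2) hout
    simp only [Par.outs, Par.outF, hgau, one_mul, inv_one, mul_one] at h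
    rw [← h, inv_inv]
  refine ⟨K₀.1, p, K₀.2, hp, hgau, fun a ha => ?_, hV₀V ?_⟩
  · rw [hR]
    refine super_inv hcFu a ?_
    have h1 := super_mul (hbsu.inv.mul hTu) hbsu a
    have h2 := super_mul hbsu.inv hTu a
    have h0 := super_mul hbsu.inv hbsu a
    rw [inv_mul_cancel, one_val, one_apply_ne Fin.castSucc_lt_succ.ne] at h0
    have h3 : (bs⁻¹ * TF).1 a.castSucc a.castSucc =
        (bs⁻¹).1 a.castSucc a.castSucc * TF.1 a.castSucc a.castSucc :=
      hbsu.inv.mul_diag hTu _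
    rw [hTs, hTd] at h2
    rw [hTd] at h3
    have hval : cF.1 a.castSucc a.succ = (bs⁻¹).1 a.castSucc a.castSucc * bs.1 a.succ a.succ := by
      rw [hcF, h1, h2, h3, ← ha]
      linear_combination (-(μ (Fin.last _) a.castSucc)) * h0
    rw [hval]
    exact mul_ne_zero (left_ne_zero_of_mul_eq_one (hbsu.inv.inv_diag _))
      (left_ne_zero_of_mul_eq_one (hbsu.inv_diag _))
  · have e : conjT K₀.1 (toMat (p.outs lam)) = Φ (u, hs.1, bs.1) := by
      rw [hout]
      simp only [Φ, conjT, toMat]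
      refine Prod.ext rfl (funext fun i => ?_)
      refine congrArg (fun M => K₀.1 * M * K₀.1.adjugate) ?_
      refine Fin.lastCases ?_ (fun i => ?_) i
      · simp only [Fin.snoc_last, hcF, mul_val, Frames.inv_apply]
      · simp only [Fin.snoc_castSucc]
        refine Fin.lastCases ?_ (fun i => ?_) i
        · simp only [c, Fin.snoc_last, mul_val, Frames.inv_apply]
          rfl
        · simp only [c, Fin.snoc_castSucc, mul_val, Frames.inv_apply]
          rfl
    rw [e]; exact hsub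

end Vale.Agent.P002.Sphere
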